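import Vale.Agent.P090.MathlibUsed
import Vale.Agent.P090.Defs

set_option linter.all false

section

section

/-! Finite groups with a marked homomorphism from a free group. -/

namespace Vale.Agent.P090

structure GG (α : Type) where
  G : Type
  [grp : Group G]
  [fin : Fintype G]
  [dec : DecidableEq G]
  hom : FreeGroup α →* G

attribute [instance] GG.grp GG.fin GG.dec

end Vale.Agent.P090
end
end

section

section

/-! Lemmas on reduced words in free groups. -/

namespace Vale.Agent.P090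

open FreeGroup

variable {α : Type*} [DecidableEq α]

/-- The element of the free group given by a letter. -/
def lt (a : α × Bool) : FreeGroup α := FreeGroup.mk [a]

/-- The inverse letter. -/
def ng (a : α × Bool) : α × Bool := (a.1, !a.2)

omit [DecidableEq α] in
@[simp] theorem ng_ng (a : α × Bool) : ng (ng a) = a := by simp [ng]

omit [DecidableEq α] in
theorem lt_ng (a : α × Bool) : lt (ng a) = (lt a)⁻¹ := by
  simp [lt, ng, FreeGroup.inv_mk, FreeGroup.invRev]

omit [DecidableEq α] in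
theorem lt_true (i : α) : lt (i, true) = of i := rfl

omit [DecidableEq α] in
theorem lt_false (i : α) : lt (i, false) = (of i)⁻¹ := by
  rw [← lt_true, ← lt_ng]; rfl

@[simp] theorem norm_lt (a : α × Bool) : FreeGroup.norm (lt a) = 1 := rfl

theorem toWord_lt_mul (a : α × Bool) (w : FreeGroup α) :
    toWord (lt a * w) = reduce (a :: toWord w) := by
  rw [toWord_mul]
  rfl

theorem lt_mul_cases (a : α × Bool) (w : FreeGroup α) :
    toWord (lt a * w) = a :: toWord w ∨
      ∃ t, toWord w = ng a :: t ∧ toWord (lt a * w) = t := by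
  rw [toWord_lt_mul, reduce.cons, reduce_toWord]
  rcases h : toWord w with _ | ⟨hd, tl⟩
  · left; rfl
  · simp only
    split_ifs with h1
    · right
      refine ⟨tl, ?_, rfl⟩
      congr 1
      ext <;> simp [ng, h1.1, h1.2]
    · left; rfl

theorem norm_lt_mul_cases (a : α × Bool) (w : FreeGroup α) :
    FreeGroup.norm (lt a * w) = FreeGroup.norm w + 1 ∨ FreeGroup.norm (lt a * w) + 1 = FreeGroup.norm w := by
  rcases lt_mul_cases a w with h | ⟨t, h1, h2⟩
  · left; simp [FreeGroup.norm, h]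
  · right; simp [FreeGroup.norm, h1, h2]

theorem norm_lt_mul_le (a : α × Bool) (w : FreeGroup α) : FreeGroup.norm (lt a * w) ≤ FreeGroup.norm w + 1 := by
  rcases norm_lt_mul_cases a w with h | h <;> omega

/-- Every nontrivial element starts with a letter. -/
theorem exists_lt_mul {w : FreeGroup α} (hw : w ≠ 1) :
    ∃ a v, w = lt a * v ∧ FreeGroup.norm w = FreeGroup.norm v + 1 := by
  rcases h : toWord w with _ | ⟨a, t⟩
  · exact absurd (toWord_eq_nil_iff.1 h) hw
  · refine ⟨a, (lt a)⁻¹ * w, by group, ?_⟩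
    rw [← lt_ng]
    rcases lt_mul_cases (ng a) w with h1 | ⟨t', h1, h2⟩
    · exfalso
      have h3 := toWord_lt_mul (ng a) w
      rw [h1, h] at h3
      have h4 : reduce (a :: t) = a :: t := by rw [← h]; exact reduce_toWord w
      rw [reduce.cons, h4] at h3
      simp [ng] at h3
      have := congrArg List.length h3
      simp only [List.length_cons] at this
      omega
    · simp [FreeGroup.norm, h1, h2]

theorem toWord_mul_of_norm {u v : FreeGroup α} (h : FreeGroup.norm (u * v) = FreeGroup.norm u + FreeGroup.norm v) :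
    toWord (u * v) = toWord u ++ toWord v := by
  apply (toWord_mul_sublist u v).eq_of_length
  simpa [FreeGroup.norm] using h

/-- Unique factorization. -/
theorem uniq_fact {a b a' b' : FreeGroup α} (h : a * b = a' * b')
    (h1 : FreeGroup.norm (a * b) = FreeGroup.norm a + FreeGroup.norm b) (h2 : FreeGroup.norm (a' * b') = FreeGroup.norm a' + FreeGroup.norm b')
    (h3 : FreeGroup.norm a = FreeGroup.norm a') : a = a' ∧ b = b' := by
  have e1 := toWord_mul_of_norm h1
  have e2 := toWord_mul_of_norm h2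
  rw [h, e2] at e1
  have := List.append_inj e1 (by simpa [FreeGroup.norm] using h3.symm)
  exact ⟨(toWord_injective this.1).symm, (toWord_injective this.2).symm⟩

/-- Left non-cancellation. -/
theorem nc_left {s a b : FreeGroup α} (h : FreeGroup.norm (a * b) = FreeGroup.norm a + FreeGroup.norm b)
    (hs : FreeGroup.norm s < FreeGroup.norm a) : FreeGroup.norm (s * a * b) = FreeGroup.norm (s * a) + FreeGroup.norm b := by
  suffices H : ∀ n (s : FreeGroup α), FreeGroup.norm s = n → n < FreeGroup.norm a →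
      toWord (s * a * b) = toWord (s * a) ++ toWord b by
    have := H _ s rfl hs
    simp [FreeGroup.norm, this]
  intro n
  induction n with
  | zero =>
    intro s hs0 _
    rw [FreeGroup.norm_eq_zero] at hs0
    subst hs0
    simpa using toWord_mul_of_norm h
  | succ n ih =>
    intro s hs0 hlt
    have hs1 : s ≠ 1 := by
      rintro rfl
      simp at hs0
    obtain ⟨c, v, rfl, hv⟩ := exists_lt_mul hs1
    have ihv := ih v (by omega) (by omega)
    have hne : toWord (v * a) ≠ [] := by
      intro h0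
      rw [toWord_eq_nil_iff] at h0
      have : v = a⁻¹ := by
        rw [← mul_eq_one_iff_eq_inv]; exact h0
      have : FreeGroup.norm v = FreeGroup.norm a := by rw [this, FreeGroup.norm_inv_eq]
      omega
    obtain ⟨hd, tl, htl⟩ := List.exists_cons_of_ne_nil hne
    have e1 : lt c * v * a = lt c * (v * a) := by group
    have e2 : lt c * v * a * b = lt c * (v * a * b) := by group
    rw [e2, e1, toWord_lt_mul, toWord_lt_mul, reduce.cons, reduce_toWord, reduce.cons,
      reduce_toWord, ihv, htl]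
    simp only [List.cons_append]
    split_ifs <;> simp

/-- Right non-cancellation. -/
theorem nc_right {s a b : FreeGroup α} (h : FreeGroup.norm (a * b) = FreeGroup.norm a + FreeGroup.norm b)
    (hs : FreeGroup.norm s < FreeGroup.norm b) : FreeGroup.norm (a * b * s) = FreeGroup.norm a + FreeGroup.norm (b * s) := by
  have h' : FreeGroup.norm (b⁻¹ * a⁻¹) = FreeGroup.norm b⁻¹ + FreeGroup.norm a⁻¹ := by
    rw [← mul_inv_rev, FreeGroup.norm_inv_eq, FreeGroup.norm_inv_eq, FreeGroup.norm_inv_eq, h]; ring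
  have := nc_left (s := s⁻¹) h' (by simpa using hs)
  have e1 : s⁻¹ * b⁻¹ * a⁻¹ = (a * b * s)⁻¹ := by group
  have e2 : s⁻¹ * b⁻¹ = (b * s)⁻¹ := by group
  rw [e1, e2, FreeGroup.norm_inv_eq, FreeGroup.norm_inv_eq, FreeGroup.norm_inv_eq] at this
  omega

/-- Splitting off a final piece of prescribed length. -/
theorem exists_split (w : FreeGroup α) {k : ℕ} (hk : k ≤ FreeGroup.norm w) :
    ∃ u v, w = u * v ∧ FreeGroup.norm v = k ∧ FreeGroup.norm u + k = FreeGroup.norm w := by
  induction k with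
  | zero => exact ⟨w, 1, by simp, by simp, by simp⟩
  | succ k ih =>
    obtain ⟨u, v, rfl, hv, hu⟩ := ih (by omega)
    have hu1 : u⁻¹ ≠ 1 := by
      intro h
      have : u = 1 := by simpa using h
      subst this
      simp only [FreeGroup.norm_one, zero_add, one_mul, Order.add_one_le_iff] at hu hk
      omega
    obtain ⟨a, t, hat, hn⟩ := exists_lt_mul hu1
    have hu' : u = t⁻¹ * (lt a)⁻¹ := by
      rw [← mul_inv_rev, ← hat, inv_inv]
    refine ⟨t⁻¹, (lt a)⁻¹ * v, by rw [hu']; group, ?_, ?_⟩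
    · have h1 : FreeGroup.norm ((lt a)⁻¹ * v) ≤ k + 1 := by
        calc FreeGroup.norm ((lt a)⁻¹ * v) ≤ FreeGroup.norm (lt a)⁻¹ + FreeGroup.norm v := FreeGroup.norm_mul_le _ _
          _ = k + 1 := by simp only [norm_inv_eq, norm_lt, hv]; ring
      have h2 : FreeGroup.norm (u * v) ≤ FreeGroup.norm t + FreeGroup.norm ((lt a)⁻¹ * v) := by
        have : u * v = t⁻¹ * ((lt a)⁻¹ * v) := by rw [hu']; group
        rw [this]
        calc FreeGroup.norm (t⁻¹ * ((lt a)⁻¹ * v)) ≤ FreeGroup.norm t⁻¹ + FreeGroup.norm ((lt a)⁻¹ * v) := FreeGroup.norm_mul_le _ _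
          _ = _ := by simp
      rw [FreeGroup.norm_inv_eq] at hn
      omega
    · rw [FreeGroup.norm_inv_eq] at hn ⊢
      omega

/-- The letters decreasing the length of a nontrivial element: exactly one. -/
theorem sum_norm_lt_mul [Fintype α] {w : FreeGroup α} (hw : w ≠ 1) :
    ∑ a : α × Bool, ((FreeGroup.norm (lt a * w) : ℤ) - FreeGroup.norm w) = 2 * Fintype.card α - 2 := by
  rcases h : toWord w with _ | ⟨b, t⟩
  · exact absurd (toWord_eq_nil_iff.1 h) hw
  have key : ∀ a : α × Bool, ((FreeGroup.norm (lt a * w) : ℤ) - FreeGroup.norm w) = 1 - 2 * (if a = ng b then 1 else 0) := by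
    intro a
    by_cases hab : a = ng b
    · subst hab
      rcases lt_mul_cases (ng b) w with h1 | ⟨t', h1, h2⟩
      · exfalso
        have h3 := toWord_lt_mul (ng b) w
        rw [h1, h] at h3
        have h4 : reduce (b :: t) = b :: t := by rw [← h]; exact reduce_toWord w
        rw [reduce.cons, h4] at h3
        simp [ng] at h3
        have := congrArg List.length h3
        simp only [List.length_cons] at this
        omega
      · rw [h] at h1
        simp only [FreeGroup.norm, h2, h, h1, ng_ng, List.length_cons, Nat.cast_add, Nat.cast_one, sub_add_cancel_left, Int.reduceNeg, ↓reduceIte, mul_one, Int.reduceSub]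
    · rcases lt_mul_cases a w with h1 | ⟨t', h1, h2⟩
      · simp only [FreeGroup.norm, h1, List.length_cons, Nat.cast_add, Nat.cast_one, add_sub_cancel_left, hab, ↓reduceIte, mul_zero, sub_zero]
      · exfalso
        rw [h] at h1
        have : b = ng a := (List.cons.inj h1).1
        exact hab (by rw [this, ng_ng])
  simp only [key]
  rw [Finset.sum_sub_distrib, ← Finset.mul_sum]
  simp only [Finset.sum_const, Finset.card_univ, Fintype.card_prod, Fintype.card_bool, Int.nsmul_eq_mul, Nat.cast_mul, Nat.cast_ofNat, mul_one, Finset.sum_ite_eq', Finset.mem_univ, ↓reduceIte, sub_left_inj]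
  ring

theorem norm_map_le {β : Type*} [DecidableEq β] (f : α → β) (w : FreeGroup α) :
    FreeGroup.norm (FreeGroup.map f w) ≤ FreeGroup.norm w := by
  conv_lhs => rw [← mk_toWord (x := w)]
  rw [FreeGroup.map.mk]
  exact FreeGroup.norm_mk_le.trans (by simp [FreeGroup.norm])

end Vale.Agent.P090
end
end

section

section

/-! The labelled graphs `V_N` as sets with an action of the free group, and their cocycles. -/

namespace Vale.Agent.P090

open FreeGroup (of)

abbrev AA := Fin 2

abbrev BB := Fin 2 × Fin 8 × Fin 8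

section Act

variable (P : GG AA) {H : Type} [Group H] (φ : FreeGroup BB →* H)

/-- The letter of the edge leaving `c` in direction `i`. -/
def letter (i : AA) (c : P.G) (t : P.G → Fin 8) : BB := (i, t c, t (P.hom (of i) * c))

/-- The permutation given by a generator. -/
def stepPerm (i : AA) : Equiv.Perm (P.G × (P.G → Fin 8) × H) where
  toFun x := (P.hom (of i) * x.1, x.2.1, φ (of (letter P i x.1 x.2.1)) * x.2.2)
  invFun x := ((P.hom (of i))⁻¹ * x.1, x.2.1,
    (φ (of (letter P i ((P.hom (of i))⁻¹ * x.1) x.2.1)))⁻¹ * x.2.2)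
  left_inv := by
    rintro ⟨c, t, u⟩
    simp
  right_inv := by
    rintro ⟨c, t, u⟩
    simp

/-- The action of the free group. -/
def actHom : FreeGroup AA →* Equiv.Perm (P.G × (P.G → Fin 8) × H) :=
  FreeGroup.lift (stepPerm P φ)

theorem actHom_of (i : AA) (x : P.G × (P.G → Fin 8) × H) :
    actHom P φ (of i) x = (P.hom (of i) * x.1, x.2.1, φ (of (letter P i x.1 x.2.1)) * x.2.2) := by
  simp only [actHom, FreeGroup.lift_apply_of, stepPerm, Equiv.coe_fn_mk]

theorem actHom_of_inv (i : AA) (x : P.G × (P.G → Fin 8) × H) :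
    actHom P φ (of i)⁻¹ x = ((P.hom (of i))⁻¹ * x.1, x.2.1,
    (φ (of (letter P i ((P.hom (of i))⁻¹ * x.1) x.2.1)))⁻¹ * x.2.2) := by
  have : actHom P φ (of i)⁻¹ = (stepPerm P φ i)⁻¹ := by simp only [actHom, map_inv, FreeGroup.lift_apply_of]
  rw [this]
  rfl

/-- The universal cocycle. -/
def cc (w : FreeGroup AA) (c : P.G) (t : P.G → Fin 8) : FreeGroup BB :=
  (actHom P (MonoidHom.id (FreeGroup BB)) w (c, t, 1)).2.2

theorem actHom_id_eq (w : FreeGroup AA) : ∀ (c : P.G) (t : P.G → Fin 8) (v : FreeGroup BB),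
    actHom P (MonoidHom.id (FreeGroup BB)) w (c, t, v) = (P.hom w * c, t, cc P w c t * v) := by
  induction w using FreeGroup.induction_on with
  | C1 => intro c t v; simp only [map_one, Equiv.Perm.coe_one, id_eq, one_mul, cc]
  | of i => intro c t v; simp [cc, actHom_of]
  | inv_of i _ =>
    intro c t v
    rw [actHom_of_inv, cc, actHom_of_inv]
    simp only [MonoidHom.id_apply, map_inv, mul_one]
  | mul x y hx hy =>
    intro c t v
    have h1 : cc P (x * y) c t = cc P x (P.hom y * c) t * cc P y c t := by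
      rw [cc, map_mul, Equiv.Perm.mul_apply, hy, hx]; simp
    rw [h1, map_mul, Equiv.Perm.mul_apply, hy, hx]
    simp only [map_mul, mul_assoc]

theorem cc_mul (x y : FreeGroup AA) (c : P.G) (t : P.G → Fin 8) :
    cc P (x * y) c t = cc P x (P.hom y * c) t * cc P y c t := by
  rw [cc, map_mul, Equiv.Perm.mul_apply, actHom_id_eq, actHom_id_eq]; simp

theorem cc_of (i : AA) (c : P.G) (t : P.G → Fin 8) :
    cc P (of i) c t = of (letter P i c t) := by
  simp [cc, actHom_of]

theorem cc_of_inv (i : AA) (c : P.G) (t : P.G → Fin 8) :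
    cc P (of i)⁻¹ c t = (of (letter P i ((P.hom (of i))⁻¹ * c) t))⁻¹ := by
  rw [cc, actHom_of_inv]
  simp only [MonoidHom.id_apply, mul_one]

theorem cc_one (c : P.G) (t : P.G → Fin 8) : cc P 1 c t = 1 := by simp only [cc, map_one, Equiv.Perm.coe_one, id_eq]

theorem actHom_eq (w : FreeGroup AA) : ∀ (c : P.G) (t : P.G → Fin 8) (u : H),
    actHom P φ w (c, t, u) = (P.hom w * c, t, φ (cc P w c t) * u) := by
  induction w using FreeGroup.induction_on with
  | C1 => intro c t u; simp only [map_one, Equiv.Perm.coe_one, id_eq, one_mul, cc_one]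
  | of i => intro c t u; simp [cc_of, actHom_of]
  | inv_of i _ =>
    intro c t u
    rw [actHom_of_inv, cc_of_inv]
    simp only [map_inv]
  | mul x y hx hy =>
    intro c t u
    rw [cc_mul, map_mul, Equiv.Perm.mul_apply, hy, hx]
    simp only [map_mul, mul_assoc]

theorem map_cc (w : FreeGroup AA) : ∀ (c : P.G) (t : P.G → Fin 8),
    FreeGroup.map Prod.fst (cc P w c t) = w := by
  induction w using FreeGroup.induction_on with
  | C1 => intro c t; simp [cc_one]
  | of i => intro c t; simp [cc_of, letter]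
  | inv_of i _ => intro c t; simp only [cc_of_inv, letter, mul_inv_cancel_left, map_inv, FreeGroup.map.of]
  | mul x y hx hy => intro c t; rw [cc_mul, map_mul, hx, hy]

theorem norm_cc_lt (a : AA × Bool) (c : P.G) (t : P.G → Fin 8) :
    FreeGroup.norm (cc P (lt a) c t) = 1 := by
  obtain ⟨i, b⟩ := a
  cases b
  · rw [lt_false, cc_of_inv, FreeGroup.norm_inv_eq, FreeGroup.norm_of]
  · rw [lt_true, cc_of, FreeGroup.norm_of]

theorem norm_cc (w : FreeGroup AA) (c : P.G) (t : P.G → Fin 8) :
    FreeGroup.norm (cc P w c t) = FreeGroup.norm w := by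
  apply le_antisymm
  · generalize hn : FreeGroup.norm w = n
    induction n generalizing w with
    | zero =>
      rw [FreeGroup.norm_eq_zero] at hn
      subst hn
      simp [cc_one]
    | succ n ih =>
      have hw : w ≠ 1 := by rintro rfl; simp at hn
      obtain ⟨a, v, rfl, hv⟩ := exists_lt_mul hw
      rw [cc_mul]
      refine (FreeGroup.norm_mul_le _ _).trans ?_
      rw [norm_cc_lt]
      have := ih v (by omega)
      omega
  · calc FreeGroup.norm w = FreeGroup.norm (FreeGroup.map Prod.fst (cc P w c t)) := by rw [map_cc]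
      _ ≤ _ := norm_map_le _ _

end Act

section Vtx

/-- The vertex set of a labelled graph. -/
def Vtx (P : GG AA) (P' : GG BB) : Type := P.G × (P.G → Fin 8) × P'.G

variable (P P1 : GG AA) (P' : GG BB)

instance : Fintype (Vtx P P') := inferInstanceAs (Fintype (P.G × (P.G → Fin 8) × P'.G))

instance : DecidableEq (Vtx P P') := inferInstanceAs (DecidableEq (P.G × (P.G → Fin 8) × P'.G))

instance : MulAction (FreeGroup AA) (Vtx P P') where
  smul w x := actHom P P'.hom w x
  one_smul x := by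
    show actHom P P'.hom 1 x = x
    rw [map_one]; rfl
  mul_smul w w' x := by
    show actHom P P'.hom (w * w') x = actHom P P'.hom w (actHom P P'.hom w' x)
    rw [map_mul]; rfl

theorem smul_eq (w : FreeGroup AA) (x : Vtx P P') :
    w • x = (P.hom w * x.1, x.2.1, P'.hom (cc P w x.1 x.2.1) * x.2.2) :=
  actHom_eq P P'.hom w x.1 x.2.1 x.2.2

/-- The cocycle. -/
def coc (w : FreeGroup AA) (x : Vtx P P') : FreeGroup BB := cc P w x.1 x.2.1

variable {P P1 P'}

theorem first_smul (w : FreeGroup AA) (x : Vtx P P') : (w • x).1 = P.hom w * x.1 := by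
  rw [smul_eq]

theorem second_smul (w : FreeGroup AA) (x : Vtx P P') : (w • x).2.1 = x.2.1 := by
  rw [smul_eq]

theorem third_smul (w : FreeGroup AA) (x : Vtx P P') :
    (w • x).2.2 = P'.hom (coc P P' w x) * x.2.2 := by
  rw [smul_eq]; rfl

theorem coc_mul (w w' : FreeGroup AA) (x : Vtx P P') :
    coc P P' (w * w') x = coc P P' w (w' • x) * coc P P' w' x := by
  rw [coc, cc_mul, coc, coc, first_smul, second_smul]

theorem coc_of (i : AA) (x : Vtx P P') :
    coc P P' (of i) x = of (i, x.2.1 x.1, x.2.1 (P.hom (of i) * x.1)) := cc_of P i x.1 x.2.1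

theorem map_coc (w : FreeGroup AA) (x : Vtx P P') :
    FreeGroup.map Prod.fst (coc P P' w x) = w := map_cc P w x.1 x.2.1

theorem norm_coc (w : FreeGroup AA) (x : Vtx P P') :
    FreeGroup.norm (coc P P' w x) = FreeGroup.norm w := norm_cc P w x.1 x.2.1

theorem smul_ne {w : FreeGroup AA} (hw : P.hom w ≠ 1) (x : Vtx P P') : w • x ≠ x := by
  intro h
  have := congrArg Prod.fst h
  rw [first_smul] at this
  exact hw (by simpa using this)

theorem smul_ne_of_girth {r : ℕ} (hP : ∀ w : FreeGroup AA, w ≠ 1 → FreeGroup.norm w ≤ r → P.hom w ≠ 1)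
    (w : FreeGroup AA) (hw : w ≠ 1) (hr : FreeGroup.norm w ≤ r) (x : Vtx P P') : w • x ≠ x :=
  smul_ne (hP w hw hr) x

end Vtx

section Counting

variable (P : GG AA)

theorem letter_agree (a : AA × Bool) (d : P.G) {t t' : P.G → Fin 8}
    (h : cc P (lt a) d t = cc P (lt a) d t') :
    t d = t' d ∧ t (P.hom (lt a) * d) = t' (P.hom (lt a) * d) := by
  obtain ⟨i, b⟩ := a
  cases b
  · rw [lt_false, cc_of_inv, cc_of_inv, inv_inj] at h
    have h1 := FreeGroup.of_injective h
    simp only [letter, Prod.mk.injEq, true_and] at h1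
    rw [lt_false, map_inv]
    obtain ⟨h1, h2⟩ := h1
    rw [mul_inv_cancel_left] at h2
    exact ⟨h2, h1⟩
  · rw [lt_true, cc_of, cc_of] at h
    have h1 := FreeGroup.of_injective h
    simp only [letter, Prod.mk.injEq, true_and] at h1
    rw [lt_true]
    exact h1

theorem cc_split {u v : FreeGroup AA} (huv : FreeGroup.norm (u * v) = FreeGroup.norm u + FreeGroup.norm v)
    {c : P.G} {t t' : P.G → Fin 8} (h : cc P (u * v) c t = cc P (u * v) c t') :
    cc P u (P.hom v * c) t = cc P u (P.hom v * c) t' ∧ cc P v c t = cc P v c t' := by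
  rw [cc_mul, cc_mul] at h
  refine uniq_fact h ?_ ?_ ?_
  · rw [← cc_mul, norm_cc, norm_cc, norm_cc, huv]
  · rw [← cc_mul, norm_cc, norm_cc, norm_cc, huv]
  · rw [norm_cc, norm_cc]

/-- If two labellings produce the same cocycle along a path, they agree on its vertices. -/
theorem agree_of_cc_eq (w : FreeGroup AA) (hw : w ≠ 1) (c : P.G)
    {t t' : P.G → Fin 8} (h : cc P w c t = cc P w c t') (u v : FreeGroup AA) (huv : w = u * v)
    (hn : FreeGroup.norm w = FreeGroup.norm u + FreeGroup.norm v) :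
      t (P.hom v * c) = t' (P.hom v * c) := by
  subst huv
  obtain ⟨h1, h2⟩ := cc_split P hn h
  by_cases hu : u = 1
  · subst hu
    rw [one_mul] at hw
    obtain ⟨a, v', rfl, hv⟩ := exists_lt_mul hw
    have h3 := (cc_split P (by rw [hv, norm_lt]; ring) h2).1
    have := (letter_agree P a _ h3).2
    simpa only [map_mul, mul_assoc] using this
  · have h1' : 1 ≤ FreeGroup.norm u := by
      rcases Nat.eq_zero_or_pos (FreeGroup.norm u) with h0 | h0
      · exact absurd (FreeGroup.norm_eq_zero.1 h0) hu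
      · exact h0
    obtain ⟨u', l, rfl, hl, hul⟩ := exists_split u h1'
    have h3 := (cc_split P (by rw [hl, hul]) h1).2
    have hl1 : l ≠ 1 := by rintro rfl; simp at hl
    obtain ⟨a, l', rfl, hl'⟩ := exists_lt_mul hl1
    have : l' = 1 := FreeGroup.norm_eq_zero.1 (by omega)
    subst this
    rw [mul_one] at h3
    exact (letter_agree P a _ h3).1

/-- The vertices on a path of length `S`: there are `S + 1` of them. -/
theorem exists_path (S : ℕ)
    (hP : ∀ w : FreeGroup AA, w ≠ 1 → FreeGroup.norm w ≤ S → P.hom w ≠ 1)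
    (w : FreeGroup AA) (hw : w ≠ 1) (hS : FreeGroup.norm w = S) (c : P.G) :
    ∃ A : Finset P.G, A.card = S + 1 ∧ ∀ t t' : P.G → Fin 8, cc P w c t = cc P w c t' →
      ∀ a ∈ A, t a = t' a := by
  have hk : ∀ k : Fin (S + 1), ∃ u v, w = u * v ∧ FreeGroup.norm v = k ∧
      FreeGroup.norm u + k = FreeGroup.norm w := fun k => exists_split w (by omega)
  choose u v huv hv hu using hk
  refine ⟨Finset.univ.image (fun k => P.hom (v k) * c), ?_, ?_⟩
  · rw [Finset.card_image_of_injective, Finset.card_univ, Fintype.card_fin]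
    have key : ∀ k k' : Fin (S + 1), k < k' → P.hom (v k) ≠ P.hom (v k') := by
      intro k k' hkk h
      have hkk' : (k : ℕ) < k' := hkk
      obtain ⟨u'', v'', h1, h2, h3⟩ := exists_split (v k') (k := k) (by rw [hv]; omega)
      have h4 : u k * v k = (u k' * u'') * v'' := by
        rw [← huv k, mul_assoc, ← h1, ← huv k']
      have h5 : FreeGroup.norm (u k' * u'') = FreeGroup.norm (u k') + FreeGroup.norm u'' := by
        apply le_antisymm (FreeGroup.norm_mul_le _ _)
        have h6 : FreeGroup.norm w ≤ FreeGroup.norm (u k' * u'') + FreeGroup.norm v'' := by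
          conv_lhs => rw [huv k, h4]
          exact FreeGroup.norm_mul_le _ _
        have h7 := hu k'
        have h8 := hv k'
        omega
      have h9 : v k = v'' := by
        refine (uniq_fact h4 ?_ ?_ ?_).2
        · rw [← huv k, hv k, hu k]
        · rw [← h4, ← huv k, h5, h2]
          have h7 := hu k'
          have h8 := hv k'
          omega
        · rw [h5]
          have h7 := hu k'
          have h8 := hv k'
          have h7' := hu k
          omega
      rw [h1, map_mul, ← h9] at h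
      have h10 : P.hom u'' = 1 := by simpa using h
      refine hP u'' ?_ ?_ h10
      · rintro rfl
        simp at h3
        have h8 := hv k'
        omega
      · have h8 := hv k'
        omega
    intro k k' h
    have h' : P.hom (v k) = P.hom (v k') := by simpa only [mul_left_inj] using h
    rcases lt_trichotomy k k' with h1 | h1 | h1
    · exact absurd h' (key _ _ h1)
    · exact h1
    · exact absurd h'.symm (key _ _ h1)
  · intro t t' h a ha
    obtain ⟨k, -, rfl⟩ := Finset.mem_image.1 ha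
    refine agree_of_cc_eq P w hw c h (u k) (v k) (huv k) ?_
    rw [← hu k, hv k]

theorem card_agree {G : Type} [Fintype G] [DecidableEq G] (T : Finset (G → Fin 8)) (A : Finset G)
    (h : ∀ t ∈ T, ∀ t' ∈ T, ∀ a ∈ A, t a = t' a) :
    T.card * 8 ^ A.card ≤ 8 ^ Fintype.card G := by
  have h1 : (T ×ˢ (Finset.univ : Finset (A → Fin 8))).card ≤
      (Finset.univ : Finset (G → Fin 8)).card := by
    refine Finset.card_le_card_of_injOn
      (fun p g => if hg : g ∈ A then p.2 ⟨g, hg⟩ else p.1 g) (fun _ _ => Finset.mem_univ _) ?_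
    rintro ⟨t, f⟩ ht ⟨t', f'⟩ ht' he
    simp only [Finset.coe_product, Set.mem_prod, Finset.mem_coe] at ht ht'
    have he' : ∀ g, (if hg : g ∈ A then f ⟨g, hg⟩ else t g) =
        (if hg : g ∈ A then f' ⟨g, hg⟩ else t' g) := fun g => congrFun he g
    refine Prod.ext (funext fun g => ?_) (funext fun g => ?_)
    · by_cases hg : g ∈ A
      · exact h t ht.1 t' ht'.1 g hg
      · simpa [hg] using he' g
    · simpa using he' g
  simpa only [ge_iff_le, Finset.card_product, Finset.card_univ, Fintype.card_pi, Finset.univ_eq_attach,     Fintype.card_fin, Finset.prod_const, Finset.card_attach] using h1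

variable (P1 : GG AA) (P' : GG BB)

theorem card_fixed (S : ℕ)
    (hP : ∀ w : FreeGroup AA, w ≠ 1 → FreeGroup.norm w ≤ S → P.hom w ≠ 1)
    (w : FreeGroup AA) (hw : w ≠ 1) (hS : FreeGroup.norm w = S) (β : FreeGroup BB) :
    (Finset.univ.filter (fun x : P.G × (P.G → Fin 8) × P'.G => cc P w x.1 x.2.1 = β)).card
      * 8 ^ (S + 1) ≤ Fintype.card (Vtx P P') := by
  have h1 : (Finset.univ.filter (fun x : P.G × (P.G → Fin 8) × P'.G =>
      cc P w x.1 x.2.1 = β)).card = 
      ∑ c : P.G, (Finset.univ.filter (fun t : P.G → Fin 8 => cc P w c t = β)).card *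
        Fintype.card P'.G := by
    rw [Finset.card_filter, Fintype.sum_prod_type]
    refine Finset.sum_congr rfl fun c _ => ?_
    rw [Fintype.sum_prod_type, Finset.card_filter, Finset.sum_mul]
    refine Finset.sum_congr rfl fun t _ => ?_
    split_ifs <;> simp
  rw [h1, Finset.sum_mul]
  have h2 : Fintype.card (Vtx P P') = ∑ _c : P.G, 8 ^ Fintype.card P.G * Fintype.card P'.G := by
    have : Fintype.card (Vtx P P') = Fintype.card (P.G × (P.G → Fin 8) × P'.G) := rfl
    rw [this, Fintype.card_prod, Fintype.card_prod]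
    simp only [Fintype.card_pi, Fintype.card_fin, Finset.prod_const, Finset.card_univ, Finset.sum_const, smul_eq_mul]
  rw [h2]
  refine Finset.sum_le_sum fun c _ => ?_
  obtain ⟨A, hA, hA'⟩ := exists_path P S hP w hw hS c
  have h3 := card_agree (Finset.univ.filter (fun t : P.G → Fin 8 => cc P w c t = β)) A (by
    intro t ht t' ht' a ha
    rw [Finset.mem_filter] at ht ht'
    exact hA' t t' (ht.2.trans ht'.2.symm) a ha)
  rw [hA] at h3
  calc _ = (Finset.univ.filter (fun t : P.G → Fin 8 => cc P w c t = β)).card * 8 ^ (S + 1) *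
        Fintype.card P'.G := by ring
    _ ≤ _ := Nat.mul_le_mul_right _ h3

theorem card_match (S : ℕ)
    (hP : ∀ w : FreeGroup AA, w ≠ 1 → FreeGroup.norm w ≤ S → P.hom w ≠ 1) :
    Nat.card {x : Vtx P P' // ∃ z : Vtx P1 P', ∃ w : FreeGroup AA, FreeGroup.norm w = S ∧
      coc P P' w x = coc P1 P' w z} * 8 ^ (S + 1) ≤
      (Fintype.card P1.G * 8 ^ Fintype.card P1.G) * 4 ^ S * Fintype.card (Vtx P P') := by
  classical
  rcases Nat.eq_zero_or_pos S with rfl | hS0
  · have h1 : Nat.card {x : Vtx P P' // ∃ z : Vtx P1 P', ∃ w : FreeGroup AA, FreeGroup.norm w = 0 ∧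
      coc P P' w x = coc P1 P' w z} ≤ Fintype.card (Vtx P P') := by
      rw [Nat.card_eq_fintype_card]
      exact Fintype.card_subtype_le _
    have h2 : 1 ≤ Fintype.card P1.G := Fintype.card_pos
    have h3 : 8 ^ 1 ≤ 8 ^ Fintype.card P1.G := Nat.pow_le_pow_right (by norm_num) h2
    calc _ ≤ Fintype.card (Vtx P P') * 8 ^ (0 + 1) := Nat.mul_le_mul_right _ h1
      _ = (1 * 8 ^ 1) * 4 ^ 0 * Fintype.card (Vtx P P') := by ring
      _ ≤ _ := by gcongr
  rw [Nat.card_eq_fintype_card, Fintype.card_subtype]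
  set B : (P1.G × (P1.G → Fin 8)) × (Fin S → AA × Bool) → Finset (Vtx P P') := fun q =>
    Finset.univ.filter (fun x : Vtx P P' => FreeGroup.norm (FreeGroup.mk (List.ofFn q.2)) = S ∧
      cc P (FreeGroup.mk (List.ofFn q.2)) x.1 x.2.1 =
        cc P1 (FreeGroup.mk (List.ofFn q.2)) q.1.1 q.1.2) with hB
  have hsub : (Finset.univ.filter (fun x : Vtx P P' => ∃ z : Vtx P1 P', ∃ w : FreeGroup AA,
      FreeGroup.norm w = S ∧ coc P P' w x = coc P1 P' w z)) ⊆ Finset.univ.biUnion B := by
    intro x hx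
    rw [Finset.mem_filter] at hx
    obtain ⟨-, z, w, hw, h⟩ := hx
    rw [Finset.mem_biUnion]
    have hlen : w.toWord.length = S := hw
    subst hlen
    refine ⟨((z.1, z.2.1), w.toWord.get), Finset.mem_univ _, ?_⟩
    have : FreeGroup.mk (List.ofFn w.toWord.get) = w := by
      rw [List.ofFn_get]; exact FreeGroup.mk_toWord
    simp only [hB, Finset.mem_filter, Finset.mem_univ, true_and]
    rw [this]
    exact ⟨rfl, h⟩
  have hBcard : ∀ q ∈ (Finset.univ : Finset ((P1.G × (P1.G → Fin 8)) × (Fin S → AA × Bool))),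
      (B q).card ≤ Fintype.card (Vtx P P') / 8 ^ (S + 1) := by
    intro q _
    rw [Nat.le_div_iff_mul_le (by positivity)]
    by_cases hq : FreeGroup.norm (FreeGroup.mk (List.ofFn q.2)) = S
    · have hne : FreeGroup.mk (List.ofFn q.2) ≠ 1 := by
        intro h0
        rw [h0] at hq
        simp at hq
        omega
      refine le_trans (Nat.mul_le_mul_right _ ?_) (card_fixed P P' S hP _ hne hq
        (cc P1 (FreeGroup.mk (List.ofFn q.2)) q.1.1 q.1.2))
      refine Finset.card_le_card ?_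
      intro x hx
      simp only [hB, Finset.mem_filter, Finset.mem_univ, true_and] at hx
      exact Finset.mem_filter.2 ⟨Finset.mem_univ _, hx.2⟩
    · have : B q = ∅ := by
        simp only [hB]
        rw [Finset.filter_eq_empty_iff]
        intro x _ h
        exact hq h.1
      rw [this]
      simp only [Finset.card_empty, zero_mul, zero_le]
  have h1 := (Finset.card_le_card hsub).trans (Finset.card_biUnion_le_card_mul _ _ _ hBcard)
  have h2 : (Finset.univ : Finset ((P1.G × (P1.G → Fin 8)) × (Fin S → AA × Bool))).card =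
      (Fintype.card P1.G * 8 ^ Fintype.card P1.G) * 4 ^ S := by
    rw [Finset.card_univ]
    simp only [Fintype.card_prod, Fintype.card_pi, Fintype.card_fin, Finset.prod_const, Finset.card_univ, Fintype.card_bool, Nat.reduceMul]
  rw [h2] at h1
  calc _ ≤ (Fintype.card P1.G * 8 ^ Fintype.card P1.G) * 4 ^ S *
        (Fintype.card (Vtx P P') / 8 ^ (S + 1)) * 8 ^ (S + 1) := Nat.mul_le_mul_right _ h1
    _ = (Fintype.card P1.G * 8 ^ Fintype.card P1.G) * 4 ^ S *
        (Fintype.card (Vtx P P') / 8 ^ (S + 1) * 8 ^ (S + 1)) := by ring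
    _ ≤ _ := Nat.mul_le_mul_left _ (Nat.div_mul_le_self _ _)

end Counting

end Vale.Agent.P090
end
end

section

section

/-! Finite groups of large girth: permutations of a ball of the free group. -/

namespace Vale.Agent.P090

open FreeGroup

section Girth

variable (α : Type) [DecidableEq α] [Fintype α] (r : ℕ)

/-- The ball of radius `r` in the free group. -/
abbrev FBall : Type := {w : FreeGroup α // w.norm ≤ r}

instance FBall.finite : Finite (FBall α r) := by
  have h : {l : List (α × Bool) | l.length ≤ r}.Finite := List.finite_length_le _ _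
  have := h.to_subtype
  refine Finite.of_injective
    (fun w : FBall α r => (⟨w.1.toWord, w.2⟩ : {l : List (α × Bool) | l.length ≤ r})) ?_
  intro x y hxy
  have : x.1.toWord = y.1.toWord := congrArg Subtype.val hxy
  exact Subtype.ext (FreeGroup.toWord_injective this)

noncomputable instance FBall.fintype : Fintype (FBall α r) := Fintype.ofFinite _

noncomputable instance FBall.decEq : DecidableEq (FBall α r) := Classical.decEq _

/-- The partial injection given by left multiplication by a generator. -/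
noncomputable def girthEquiv (i : α) :
    {x : FBall α r // (of i * x.1).norm ≤ r} ≃ {y : FBall α r // ((of i)⁻¹ * y.1).norm ≤ r} where
  toFun x := ⟨⟨of i * x.1.1, x.2⟩, by
    have h : (of i)⁻¹ * (of i * x.1.1) = x.1.1 := by group
    show ((of i)⁻¹ * (of i * x.1.1)).norm ≤ r
    rw [h]; exact x.1.2⟩
  invFun y := ⟨⟨(of i)⁻¹ * y.1.1, y.2⟩, by
    have h : (of i) * ((of i)⁻¹ * y.1.1) = y.1.1 := by group
    show (of i * ((of i)⁻¹ * y.1.1)).norm ≤ r
    rw [h]; exact y.1.2⟩
  left_inv x := by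
    apply Subtype.ext; apply Subtype.ext
    show (of i)⁻¹ * (of i * x.1.1) = x.1.1
    group
  right_inv y := by
    apply Subtype.ext; apply Subtype.ext
    show (of i) * ((of i)⁻¹ * y.1.1) = y.1.1
    group

/-- The permutation of the ball attached to a generator. -/
noncomputable def girthGen (i : α) : Equiv.Perm (FBall α r) :=
  (girthEquiv α r i).extendSubtype

/-- The homomorphism from the free group to the permutations of the ball. -/
noncomputable def girthHom : FreeGroup α →* Equiv.Perm (FBall α r) :=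
  FreeGroup.lift (girthGen α r)

theorem girthHom_of_apply (i : α) (x : FBall α r) (hx : (of i * x.1).norm ≤ r) :
    girthHom α r (of i) x = ⟨of i * x.1, hx⟩ := by
  unfold girthHom
  rw [FreeGroup.lift_apply_of]
  unfold girthGen
  rw [Equiv.extendSubtype_apply_of_mem _ x hx]
  rfl

theorem girthHom_of_inv_apply (i : α) (x : FBall α r) (hx : ((of i)⁻¹ * x.1).norm ≤ r) :
    girthHom α r (of i)⁻¹ x = ⟨(of i)⁻¹ * x.1, hx⟩ := by
  rw [_root_.map_inv, Equiv.Perm.inv_eq_iff_eq]
  have h2 : (of i * ((of i)⁻¹ * x.1)).norm ≤ r := by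
    have : (of i) * ((of i)⁻¹ * x.1) = x.1 := by group
    rw [this]; exact x.2
  rw [girthHom_of_apply α r i ⟨(of i)⁻¹ * x.1, hx⟩ h2]
  apply Subtype.ext
  show x.1 = of i * ((of i)⁻¹ * x.1)
  group

/-- The identity element of the ball. -/
def FBall.one : FBall α r := ⟨1, by simp⟩

theorem girthHom_mk_apply_one (L : List (α × Bool)) (hL : FreeGroup.IsReduced L)
    (hr : L.length ≤ r) :
    ((girthHom α r (FreeGroup.mk L)) (FBall.one α r)).1 = FreeGroup.mk L := by
  induction L with
  | nil =>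
    rw [← FreeGroup.one_eq_mk, _root_.map_one]
    rfl
  | cons a L ih =>
    have hL' : FreeGroup.IsReduced L := List.IsChain.tail hL
    have hr' : L.length ≤ r := by simp only [List.length_cons] at hr; omega
    have ih' := ih hL' hr'
    have hnorm : (FreeGroup.mk (a :: L)).norm ≤ r := le_trans FreeGroup.norm_mk_le hr
    rcases a with ⟨i, b⟩
    cases b with
    | true =>
      have hsplit : FreeGroup.mk ((i, true) :: L) = of i * FreeGroup.mk L := by
        simp [FreeGroup.of, FreeGroup.mul_mk]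
      rw [hsplit] at hnorm ⊢
      rw [_root_.map_mul, Equiv.Perm.mul_apply]
      rw [girthHom_of_apply α r i _ (by rw [ih']; exact hnorm)]
      show of i * _ = _
      rw [ih']
    | false =>
      have hsplit : FreeGroup.mk ((i, false) :: L) = (of i)⁻¹ * FreeGroup.mk L := by
        simp [FreeGroup.of, FreeGroup.mul_mk, FreeGroup.inv_mk, FreeGroup.invRev]
      rw [hsplit] at hnorm ⊢
      rw [_root_.map_mul, Equiv.Perm.mul_apply]
      rw [girthHom_of_inv_apply α r i _ (by rw [ih']; exact hnorm)]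
      show (of i)⁻¹ * _ = _
      rw [ih']

theorem girthHom_apply_one (w : FreeGroup α) (hw : w.norm ≤ r) :
    ((girthHom α r w) (FBall.one α r)).1 = w := by
  have h := girthHom_mk_apply_one α r w.toWord FreeGroup.isReduced_toWord hw
  rwa [FreeGroup.mk_toWord] at h

/-- `girthHom` is injective on elements of length at most `r`: it kills no nontrivial short word. -/
theorem girthHom_ne_one (w : FreeGroup α) (hw : w.norm ≤ r) (h1 : w ≠ 1) :
    girthHom α r w ≠ 1 := by
  intro h
  apply h1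
  have := girthHom_apply_one α r w hw
  rw [h] at this
  exact this.symm

/-- Existence of finite groups of large girth. -/
theorem exists_girth (α : Type) [Fintype α] [DecidableEq α] (r : ℕ) :
    ∃ P : GG α, ∀ w : FreeGroup α, w ≠ 1 → w.norm ≤ r → P.hom w ≠ 1 :=
  ⟨⟨Equiv.Perm (FBall α r), girthHom α r⟩, fun w h1 hw => girthHom_ne_one α r w hw h1⟩

end Girth

end Vale.Agent.P090
end
end

section

section

/-! Truncated Schreier distance for an action of a free group, and the in-range relation. -/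

namespace Vale.Agent.P090

/-- Truncated Schreier distance: the least length of a word carrying `x` to `y`, but at most `T`. -/
noncomputable def sd (α : Type) {X : Type} [DecidableEq α] [MulAction (FreeGroup α) X]
    (T : ℕ) (x y : X) : ℕ :=
  sInf {n | T ≤ n ∨ ∃ w : FreeGroup α, w.norm ≤ n ∧ w • x = y}

/-- `v` is obtained from `u` by a word of length less than `R`. -/
def InR {β Q : Type} [DecidableEq β] [MulAction (FreeGroup β) Q] (R : ℕ) (u v : Q) : Prop :=
  ∃ σ : FreeGroup β, σ.norm < R ∧ σ • u = v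

variable {α X : Type} [DecidableEq α] [MulAction (FreeGroup α) X] {T : ℕ} {x y z : X}

theorem sd_le_iff {n : ℕ} :
    sd α T x y ≤ n ↔ T ≤ n ∨ ∃ w : FreeGroup α, w.norm ≤ n ∧ w • x = y := by
  constructor
  · intro h
    have hne : {n | T ≤ n ∨ ∃ w : FreeGroup α, w.norm ≤ n ∧ w • x = y}.Nonempty :=
      ⟨T, Or.inl le_rfl⟩
    rcases Nat.sInf_mem hne with h1 | ⟨w, h1, h2⟩
    · exact Or.inl (h1.trans h)
    · exact Or.inr ⟨w, h1.trans h, h2⟩
  · intro h
    exact Nat.sInf_le h

theorem sd_le : sd α T x y ≤ T := sd_le_iff.2 (Or.inl le_rfl)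

theorem sd_self : sd α T x x = 0 :=
  Nat.le_zero.1 (sd_le_iff.2 (Or.inr ⟨1, by simp, by simp⟩))

theorem sd_comm_le : sd α T x y ≤ sd α T y x := by
  rcases sd_le_iff.1 (le_refl (sd α T y x)) with h | ⟨w, h1, h2⟩
  · exact sd_le_iff.2 (Or.inl h)
  · refine sd_le_iff.2 (Or.inr ⟨w⁻¹, by simpa using h1, ?_⟩)
    rw [← h2, inv_smul_smul]

theorem sd_comm (x y : X) : sd α T x y = sd α T y x :=
  le_antisymm sd_comm_le sd_comm_le

theorem sd_triangle (x y z : X) : sd α T x z ≤ sd α T x y + sd α T y z := by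
  rcases sd_le_iff.1 (le_refl (sd α T x y)) with h | ⟨w, h1, h2⟩
  · exact sd_le_iff.2 (Or.inl (h.trans (Nat.le_add_right _ _)))
  rcases sd_le_iff.1 (le_refl (sd α T y z)) with h | ⟨w', h1', h2'⟩
  · exact sd_le_iff.2 (Or.inl (h.trans (Nat.le_add_left _ _)))
  refine sd_le_iff.2 (Or.inr ⟨w' * w, ?_, ?_⟩)
  · calc (w' * w).norm ≤ w'.norm + w.norm := FreeGroup.norm_mul_le _ _
      _ ≤ sd α T y z + sd α T x y := add_le_add h1' h1
      _ = _ := add_comm _ _
  · rw [mul_smul, h2, h2']

theorem sd_eq_zero (hT : 0 < T) : sd α T x y = 0 ↔ x = y := by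
  constructor
  · intro h
    rcases sd_le_iff.1 h.le with h | ⟨w, h1, h2⟩
    · omega
    · have : w = 1 := FreeGroup.norm_eq_zero.1 (Nat.le_zero.1 h1)
      rw [this, one_smul] at h2
      exact h2
  · rintro rfl
    exact sd_self

theorem sd_smul_le (w : FreeGroup α) (x : X) : sd α T x (w • x) ≤ w.norm :=
  sd_le_iff.2 (Or.inr ⟨w, le_rfl, rfl⟩)

theorem sd_lt_iff : sd α T x y < T ↔ ∃ w : FreeGroup α, w.norm < T ∧ w • x = y := by
  constructor
  · intro h
    rcases sd_le_iff.1 (le_refl (sd α T x y)) with h' | ⟨w, h1, h2⟩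
    · omega
    · exact ⟨w, h1.trans_lt h, h2⟩
  · rintro ⟨w, h1, h2⟩
    exact (sd_le_iff.2 (Or.inr ⟨w, le_rfl, h2⟩)).trans_lt h1

theorem sd_lt_iff_InR : sd α T x y < T ↔ InR (β := α) T x y := sd_lt_iff

theorem sd_lt (h : sd α T x y < T) : ∃ w : FreeGroup α, w.norm = sd α T x y ∧ w • x = y := by
  rcases sd_le_iff.1 (le_refl (sd α T x y)) with h' | ⟨w, h1, h2⟩
  · omega
  · exact ⟨w, le_antisymm h1 (sd_le_iff.2 (Or.inr ⟨w, le_rfl, h2⟩)), h2⟩

/-- One letter changes the truncated distance by at most one (target side). -/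
theorem sd_smul_right_le (w : FreeGroup α) (x y : X) :
    sd α T x (w • y) ≤ sd α T x y + w.norm :=
  (sd_triangle x y (w • y)).trans (Nat.add_le_add_left (sd_smul_le w y) _)

theorem sd_smul_right_ge (w : FreeGroup α) (x y : X) :
    sd α T x y ≤ sd α T x (w • y) + w.norm := by
  refine (sd_triangle x (w • y) y).trans (Nat.add_le_add_left ?_ _)
  rw [sd_comm]
  exact sd_smul_le w y

theorem sd_smul_left_le (w : FreeGroup α) (x y : X) :
    sd α T (w • x) y ≤ sd α T x y + w.norm := by
  rw [sd_comm (w • x) y, sd_comm x y]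
  exact sd_smul_right_le w y x

theorem sd_smul_left_ge (w : FreeGroup α) (x y : X) :
    sd α T x y ≤ sd α T (w • x) y + w.norm := by
  rw [sd_comm (w • x) y, sd_comm x y]
  exact sd_smul_right_ge w y x

/-- If `sd x y < T` then `sd` equals the length of every short word carrying `x` to `y`,
when there are no short loops at `x`. -/
theorem sd_eq_norm {w : FreeGroup α} (hT : w.norm ≤ T)
    (hfree : ∀ v : FreeGroup α, v ≠ 1 → v.norm ≤ 2 * w.norm → v • x ≠ x) :
    sd α T x (w • x) = w.norm := by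
  apply le_antisymm (sd_smul_le w x)
  by_contra hlt
  push Not at hlt
  obtain ⟨v, h1, h2⟩ := sd_lt (hlt.trans_le hT)
  by_cases hvw : w⁻¹ * v = 1
  · have : v = w := by
      rw [inv_mul_eq_one] at hvw
      exact hvw.symm
    rw [this] at h1
    omega
  · refine hfree (w⁻¹ * v) hvw ?_ ?_
    · calc (w⁻¹ * v).norm ≤ w⁻¹.norm + v.norm := FreeGroup.norm_mul_le _ _
        _ = w.norm + v.norm := by rw [FreeGroup.norm_inv_eq]
        _ ≤ 2 * w.norm := by omega
    · rw [mul_smul, h2, inv_smul_smul]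

end Vale.Agent.P090
end
end

section

section

/-! Lemma D: the discrete one-form on the classes of in-range pairs. -/

namespace Vale.Agent.P090

open FreeGroup

section

variable {α β V X Q : Type} [DecidableEq α] [DecidableEq β]

/-- All vertices on the reduced path from `x0` to `w • x0` are not bad, if `w ≠ 1`. -/
def GoodPath [MulAction (FreeGroup α) V] (bad : V → Prop) (x0 : V) (w : FreeGroup α) : Prop :=
  w = 1 ∨ ∀ u v : FreeGroup α, w = u * v → w.norm = u.norm + v.norm → ¬ bad (v • x0)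

theorem GoodPath.step [MulAction (FreeGroup α) V] {bad : V → Prop} {x0 : V} {w : FreeGroup α}
    (h : GoodPath bad x0 w) (a : α × Bool) (h1 : ¬ bad (w • x0)) (h2 : ¬ bad (lt a • w • x0)) :
    GoodPath bad x0 (lt a * w) := by
  right
  intro u v huv hn
  rcases norm_lt_mul_cases a w with hc | hc
  · by_cases hu : u = 1
    · subst hu
      rw [one_mul] at huv
      rw [← huv, mul_smul]
      exact h2
    · obtain ⟨c, u', rfl, hu'⟩ := exists_lt_mul hu
      have e1 : lt a * w = lt c * (u' * v) := by rw [huv, mul_assoc]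
      have n1 : (u' * v).norm ≤ u'.norm + v.norm := FreeGroup.norm_mul_le _ _
      have n2 : (lt c * (u' * v)).norm ≤ (u' * v).norm + 1 := norm_lt_mul_le _ _
      have n3 : (lt c * (u' * v)).norm = (lt a * w).norm := by rw [e1]
      have h3 := uniq_fact e1 (by rw [norm_lt]; omega) (by rw [norm_lt]; omega)
        (by rw [norm_lt, norm_lt])
      have e2 : w = u' * v := h3.2
      have n4 : w.norm = (u' * v).norm := by rw [← e2]
      rcases h with h | h
      · have n5 : w.norm = 0 := by rw [h]; simp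
        have hv : v = 1 := FreeGroup.norm_eq_zero.1 (by omega)
        rw [hv, one_smul]
        rw [h, one_smul] at h1
        exact h1
      · exact h u' v e2 (by omega)
  · rcases h with h | h
    · have n5 : w.norm = 0 := by rw [h]; simp
      omega
    · have e1 : w = (lt (ng a) * u) * v := by
        rw [mul_assoc, ← huv, lt_ng]
        group
      have n1 : (lt (ng a) * u).norm ≤ u.norm + 1 := norm_lt_mul_le _ _
      have n2 : ((lt (ng a) * u) * v).norm ≤ (lt (ng a) * u).norm + v.norm :=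
        FreeGroup.norm_mul_le _ _
      rw [← e1] at n2
      exact h (lt (ng a) * u) v e1 (by omega)

theorem exclusion [MulAction (FreeGroup α) V] [MulAction (FreeGroup α) X]
    (fst : β → α) (cV : FreeGroup α → V → FreeGroup β) (cX : FreeGroup α → X → FreeGroup β)
    (R s : ℕ)
    (hcV_mul : ∀ w w' x, cV (w * w') x = cV w (w' • x) * cV w' x)
    (hcV_map : ∀ w x, FreeGroup.map fst (cV w x) = w)
    (hcV_norm : ∀ w x, (cV w x).norm = w.norm)
    (hcX_mul : ∀ w w' x, cX (w * w') x = cX w (w' • x) * cX w' x)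
    (bad : V → Prop) (z0 : X)
    (hX : ∀ p : FreeGroup α,
      (∀ w, FreeGroup.map fst (cX w (p • z0)) = w ∧ (cX w (p • z0)).norm = w.norm) ∧
       (∀ x w, w.norm = s → cV w x = cX w (p • z0) → bad x))
    (σ σ0 : FreeGroup β) (hσ : σ.norm < R) (hσ0 : σ0.norm < R)
    (w w' : FreeGroup α) (x0 : V) (hgp : GoodPath bad x0 w)
    (heq : σ = cX w' z0 * σ0 * (cV w x0)⁻¹) : w.norm ≠ 2 * R + s := by
  intro hw
  have hX0 : ∀ w, FreeGroup.map fst (cX w z0) = w ∧ (cX w z0).norm = w.norm := by
    have := (hX 1).1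
    rwa [one_smul] at this
  obtain ⟨u3, w1, rfl, hw1, hu3⟩ := exists_split w (k := R) (by omega)
  obtain ⟨w3, w2, rfl, hw2, hw3⟩ := exists_split u3 (k := s) (by omega)
  -- the vertex w1 • x0 is not bad
  have hnb : ¬ bad (w1 • x0) := by
    rcases hgp with h | h
    · rw [h] at hw
      simp at hw
      omega
    · exact h (w3 * w2) w1 rfl (by omega)
  apply hnb
  -- the three pieces
  set A1 := cV w1 x0 with hA1
  set A2 := cV w2 (w1 • x0) with hA2
  set A3 := cV w3 (w2 • w1 • x0) with hA3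
  have hA : cV (w3 * w2 * w1) x0 = A3 * A2 * A1 := by
    rw [hcV_mul, hcV_mul]
  have nA : (A3 * A2 * A1).norm = 2 * R + s := by rw [← hA, hcV_norm, hw]
  have nA1 : A1.norm = R := by rw [hA1, hcV_norm, hw1]
  have nA2 : A2.norm = s := by rw [hA2, hcV_norm, hw2]
  have nA3 : A3.norm = R := by rw [hA3, hcV_norm]; omega
  have nA21 : (A2 * A1).norm = s + R := by
    have i1 := FreeGroup.norm_mul_le A2 A1
    have i2 := FreeGroup.norm_mul_le A3 (A2 * A1)
    rw [← mul_assoc] at i2
    (clear * - hw1 hw hu3 hw2 hw3 nA nA1 nA2 nA3 i1 i2; omega)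
  have hB : cX w' z0 = (σ * A3) * A2 * (A1 * σ0⁻¹) := by
    rw [heq, hA]
    group
  have k1 : (σ * A3 * (A2 * A1)).norm = (σ * A3).norm + (A2 * A1).norm := by
    apply nc_left
    · rw [← mul_assoc]; omega
    · omega
  have k2 : (σ * A3 * A2 * A1).norm = (σ * A3 * A2).norm + A1.norm ∧
      (σ * A3 * A2).norm = (σ * A3).norm + A2.norm := by
    have i1 := FreeGroup.norm_mul_le (σ * A3 * A2) A1
    have i2 := FreeGroup.norm_mul_le (σ * A3) A2
    rw [← mul_assoc] at k1
    constructor <;> omega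
  have k3 : (σ * A3 * A2 * A1 * σ0⁻¹).norm = (σ * A3 * A2).norm + (A1 * σ0⁻¹).norm := by
    apply nc_right k2.1
    rw [FreeGroup.norm_inv_eq]
    omega
  have nB : (cX w' z0).norm = (σ * A3).norm + A2.norm + (A1 * σ0⁻¹).norm := by
    rw [hB, ← k2.2, ← k3]
    congr 1
    group
  have nBw : w'.norm = (σ * A3).norm + A2.norm + (A1 * σ0⁻¹).norm := by
    rw [← nB, (hX0 w').2]
  set p3 := FreeGroup.map fst (σ * A3) with hp3
  set p1 := FreeGroup.map fst (A1 * σ0⁻¹) with hp1
  have hp2 : FreeGroup.map fst A2 = w2 := hcV_map _ _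
  have hw' : w' = p3 * w2 * p1 := by
    rw [← (hX0 w').1, hB, _root_.map_mul, _root_.map_mul, hp2]
  have n1 : p1.norm ≤ (A1 * σ0⁻¹).norm := norm_map_le _ _
  have n3 : p3.norm ≤ (σ * A3).norm := norm_map_le _ _
  have m1 : (p3 * w2 * p1).norm ≤ (p3 * w2).norm + p1.norm := FreeGroup.norm_mul_le _ _
  have m2 : (p3 * w2).norm ≤ p3.norm + w2.norm := FreeGroup.norm_mul_le _ _
  rw [← hw'] at m1
  have q1 : p1.norm = (A1 * σ0⁻¹).norm := by (clear * - hw1 hw hu3 hw2 hw3 nA nA1 nA2 nA3 nA21 k1 k2 k3 nB nBw n1 n3 m1 m2; omega)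
  have q3 : p3.norm = (σ * A3).norm := by (clear * - hw1 hw hu3 hw2 hw3 nA nA1 nA2 nA3 nA21 k1 k2 k3 nB nBw n3 m1 m2 q1; omega)
  -- factorization of cX w' z0 along w' = p3 * w2 * p1
  have hB' : cX w' z0 = cX p3 (w2 • p1 • z0) * cX w2 (p1 • z0) * cX p1 z0 := by
    conv_lhs => rw [hw', hcX_mul, hcX_mul]
  have l1 : (cX p1 z0).norm = (A1 * σ0⁻¹).norm := by rw [(hX0 p1).2, q1]
  have l2 : (cX w2 (p1 • z0)).norm = A2.norm := by
    rw [((hX p1).1 w2).2, nA2, hw2]
  have l3 : (cX p3 (w2 • p1 • z0)).norm = (σ * A3).norm := by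
    rw [← mul_smul, ((hX (w2 * p1)).1 p3).2, q3]
  have r1 := FreeGroup.norm_mul_le (cX p3 (w2 • p1 • z0) * cX w2 (p1 • z0)) (cX p1 z0)
  have r2 := FreeGroup.norm_mul_le (cX p3 (w2 • p1 • z0)) (cX w2 (p1 • z0))
  rw [← hB'] at r1
  have f1 := uniq_fact (hB'.symm.trans hB) (by rw [← hB']; (clear * - hw1 hw hu3 hw2 hw3 nA nA1 nA2 nA3 nA21 k1 k2 k3 nB nBw m1 m2 q1 q3 l1 l2 l3 r1 r2; omega)) (by rw [← hB]; (clear * - hw1 hw hu3 hw2 hw3 nA nA1 nA2 nA3 nA21 k1 k2 k3 nB; omega))
    (by (clear * - hw1 hw hu3 hw2 hw3 nA nA1 nA2 nA3 nA21 k1 k2 k3 nB nBw m1 m2 q1 q3 l1 l2 l3 r1 r2; omega))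
  have f2 := uniq_fact f1.1 (by (clear * - hw1 hw hu3 hw2 hw3 nA nA1 nA2 nA3 nA21 k1 k2 k3 nB nBw m1 m2 q1 q3 l1 l2 l3 r1 r2; omega)) (by (clear * - hw1 hw hu3 hw2 hw3 nA nA1 nA2 nA3 nA21 k1 k2; omega)) l3
  exact (hX p1).2 (w1 • x0) w2 hw2 f2.2.symm

variable (α) in
/-- One move between in-range pairs. -/
def Mv [MulAction (FreeGroup α) V] [MulAction (FreeGroup α) X] (P : V → X → Prop)
    (bad : V → Prop) (p p' : V × X) : Prop :=
  P p.1 p.2 ∧ P p'.1 p'.2 ∧
    ((∃ a : α × Bool, ¬ bad p.1 ∧ ¬ bad (lt a • p.1) ∧ p' = (lt a • p.1, p.2)) ∨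
     (∃ b : α × Bool, p' = (p.1, lt b • p.2)))

omit [DecidableEq α] in
theorem Mv.symm [MulAction (FreeGroup α) V] [MulAction (FreeGroup α) X] {P : V → X → Prop}
    {bad : V → Prop} {p p' : V × X} (h : Mv α P bad p p') : Mv α P bad p' p := by
  obtain ⟨x, z⟩ := p
  obtain ⟨h1, h2, ⟨a, h3, h4, rfl⟩ | ⟨b, rfl⟩⟩ := h
  · refine ⟨h2, h1, Or.inl ⟨ng a, h4, ?_, ?_⟩⟩
    · simp only [lt_ng, inv_smul_smul]
      exact h3
    · simp only [lt_ng, inv_smul_smul]
  · refine ⟨h2, h1, Or.inr ⟨ng b, ?_⟩⟩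
    simp only [lt_ng, inv_smul_smul]

omit [DecidableEq α] in
theorem Mv.gen_iff [MulAction (FreeGroup α) V] [MulAction (FreeGroup α) X] {P : V → X → Prop}
    {bad : V → Prop} {p p' : V × X} (h : Relation.ReflTransGen (Mv α P bad) p p') :
    P p.1 p.2 ↔ P p'.1 p'.2 := by
  induction h with
  | refl => rfl
  | tail _ h2 ih => exact ih.trans ⟨fun _ => h2.2.1, fun _ => h2.1⟩

variable (α) in
/-- The classes of pairs. -/
def clsSetoid [MulAction (FreeGroup α) V] [MulAction (FreeGroup α) X] (P : V → X → Prop)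
    (bad : V → Prop) : Setoid (V × X) where
  r := Relation.ReflTransGen (Mv α P bad)
  iseqv :=
    { refl := fun _ => Relation.ReflTransGen.refl
      symm := fun h => by
        induction h with
        | refl => exact Relation.ReflTransGen.refl
        | tail _ h2 ih => exact Relation.ReflTransGen.head (Mv.symm h2) ih
      trans := fun h h' => h.trans h' }

theorem class_inv [Nonempty α]
    [MulAction (FreeGroup α) V] [MulAction (FreeGroup α) X] [MulAction (FreeGroup β) Q]
    (fst : β → α) (cV : FreeGroup α → V → FreeGroup β) (cX : FreeGroup α → X → FreeGroup β)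
    (pV : V → Q) (pX : X → Q) (R : ℕ)
    (hcV_mul : ∀ w w' x, cV (w * w') x = cV w (w' • x) * cV w' x)
    (hcV_map : ∀ w x, FreeGroup.map fst (cV w x) = w)
    (hcV_norm : ∀ w x, (cV w x).norm = w.norm)
    (hpV : ∀ w x, pV (w • x) = cV w x • pV x)
    (hcX_mul : ∀ w w' x, cX (w * w') x = cX w (w' • x) * cX w' x)
    (hpX : ∀ w x, pX (w • x) = cX w x • pX x)
    (Z : Set X) (hZ : ∀ w : FreeGroup α, ∀ z ∈ Z, w • z ∈ Z)
    (Sz : X → ℕ) (hSz : ∀ (w : FreeGroup α) z, Sz (w • z) = Sz z)
    (bad : V → Prop)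
    (hX : ∀ z ∈ Z, (∀ w : FreeGroup α, w • z = z ∧ cX w z = 1) ∨
      ((∀ w, FreeGroup.map fst (cX w z) = w ∧ (cX w z).norm = w.norm) ∧
       (∀ x w, w.norm = Sz z → cV w x = cX w z → bad x)))
    (hQ : ∀ σ : FreeGroup β, σ ≠ 1 → σ.norm ≤ 2 * R → ∀ u : Q, σ • u ≠ u)
    (P : V → X → Prop) (hP : ∀ x z, P x z → z ∈ Z ∧ InR (β := β) R (pV x) (pX z))
    {p0 p : V × X} (h : Relation.ReflTransGen (Mv α P bad) p0 p) (h0 : P p0.1 p0.2)
    (σ0 : FreeGroup β) (hσ0 : σ0.norm < R) (hσ0' : σ0 • pV p0.1 = pX p0.2) :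
    ∃ (w w' : FreeGroup α) (σ : FreeGroup β), p.1 = w • p0.1 ∧ p.2 = w' • p0.2 ∧
      σ • pV p.1 = pX p.2 ∧ σ.norm < R ∧ σ = cX w' p0.2 * σ0 * (cV w p0.1)⁻¹ ∧
      GoodPath bad p0.1 w ∧ w.norm < 2 * R + Sz p0.2 := by
  have hone : ∀ x, cV 1 x = 1 := fun x => by
    have := hcV_mul 1 1 x
    rw [one_smul, mul_one] at this
    exact left_eq_mul.1 this
  have honeX : ∀ x, cX 1 x = 1 := fun x => by
    have := hcX_mul 1 1 x
    rw [one_smul, mul_one] at this
    exact left_eq_mul.1 this
  induction h with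
  | refl =>
    refine ⟨1, 1, σ0, (one_smul _ _).symm, (one_smul _ _).symm, hσ0', hσ0, ?_, Or.inl rfl, ?_⟩
    · rw [hone, honeX]; group
    · rw [FreeGroup.norm_one]; omega
  | @tail q r _ hqr ih =>
    obtain ⟨w, w', σ, hx, hz, hσ, hσR, heq, hgp, hn⟩ := ih
    obtain ⟨x, z⟩ := q
    simp only at hx hz hσ
    obtain ⟨hq1, hr1, ⟨a, h3, h4, rfl⟩ | ⟨b, rfl⟩⟩ := hqr
    · obtain ⟨-, τ, hτR, hτ⟩ := hP _ _ hr1
      simp only at hτ h3 h4 hq1 hr1 ⊢
      have hc1 : (cV (lt a) x).norm = 1 := by rw [hcV_norm, norm_lt]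
      have hττ : τ = σ * (cV (lt a) x)⁻¹ := by
        by_contra hne
        have hne1 : τ⁻¹ * (σ * (cV (lt a) x)⁻¹) ≠ 1 := by
          intro h1
          exact hne (inv_mul_eq_one.1 h1)
        refine hQ _ hne1 ?_ (pV (lt a • x)) ?_
        · have i1 := FreeGroup.norm_mul_le τ⁻¹ (σ * (cV (lt a) x)⁻¹)
          have i2 := FreeGroup.norm_mul_le σ (cV (lt a) x)⁻¹
          rw [FreeGroup.norm_inv_eq] at i1 i2
          omega
        · rw [mul_smul, mul_smul, inv_smul_eq_iff, hτ, hpV, inv_smul_smul, hσ]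
      have heq' : τ = cX w' p0.2 * σ0 * (cV (lt a * w) p0.1)⁻¹ := by
        rw [hττ, heq, hcV_mul, ← hx]
        group
      have hgp' : GoodPath bad p0.1 (lt a * w) :=
        hgp.step a (by rw [← hx]; exact h3) (by rw [← hx]; exact h4)
      refine ⟨lt a * w, w', τ, by rw [mul_smul, ← hx], hz, hτ, hτR, heq', hgp', ?_⟩
      have hle : (lt a * w).norm ≤ 2 * R + Sz p0.2 := (norm_lt_mul_le _ _).trans (by omega)
      refine lt_of_le_of_ne hle ?_
      rcases hX p0.2 (hP _ _ h0).1 with hF | hV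
      · rw [(hF w').2, one_mul] at heq'
        have e1 : cV (lt a * w) p0.1 = τ⁻¹ * σ0 := by
          rw [heq']; group
        have e2 := hcV_norm (lt a * w) p0.1
        rw [e1] at e2
        have e3 := FreeGroup.norm_mul_le τ⁻¹ σ0
        rw [FreeGroup.norm_inv_eq] at e3
        omega
      · refine exclusion fst cV cX R (Sz p0.2) hcV_mul hcV_map hcV_norm hcX_mul bad p0.2 ?_
          τ σ0 hτR hσ0 (lt a * w) w' p0.1 hgp' heq'
        intro p
        rcases hX (p • p0.2) (hZ p _ (hP _ _ h0).1) with hF | hV'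
        · exfalso
          have e1 : p • p0.2 = p0.2 := by
            have := (hF p⁻¹).1
            rw [inv_smul_smul] at this
            exact this.symm
          obtain ⟨i⟩ := ‹Nonempty α›
          have e2 := (hF (FreeGroup.of i)).2
          rw [e1] at e2
          have e3 := (hV.1 (FreeGroup.of i)).2
          rw [e2] at e3
          simp at e3
        · refine ⟨hV'.1, ?_⟩
          rw [← hSz p p0.2]
          exact hV'.2
    · obtain ⟨-, τ, hτR, hτ⟩ := hP _ _ hr1
      simp only at hτ hq1 hr1 ⊢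
      have hc1 : (cX (lt b) z).norm ≤ 1 := by
        rcases hX z (hP _ _ hq1).1 with hF | hV
        · rw [(hF _).2]; simp
        · rw [(hV.1 _).2, norm_lt]
      have hττ : τ = cX (lt b) z * σ := by
        by_contra hne
        have hne1 : τ⁻¹ * (cX (lt b) z * σ) ≠ 1 := by
          intro h1
          exact hne (inv_mul_eq_one.1 h1)
        refine hQ _ hne1 ?_ (pV x) ?_
        · have i1 := FreeGroup.norm_mul_le τ⁻¹ (cX (lt b) z * σ)
          have i2 := FreeGroup.norm_mul_le (cX (lt b) z) σ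
          rw [FreeGroup.norm_inv_eq] at i1
          omega
        · rw [mul_smul, mul_smul, inv_smul_eq_iff, hτ, hpX, hσ]
      refine ⟨w, lt b * w', τ, hx, by rw [mul_smul, ← hz], hτ, hτR, ?_, hgp, hn⟩
      rw [hττ, heq, hcX_mul, ← hz]
      group

end

/-- Lemma D. -/
theorem lemmaD {α β V X Q : Type} [DecidableEq α] [DecidableEq β] [Fintype α] [Nonempty α]
    [MulAction (FreeGroup α) V] [MulAction (FreeGroup α) X] [MulAction (FreeGroup β) Q]
    (fst : β → α) (cV : FreeGroup α → V → FreeGroup β) (cX : FreeGroup α → X → FreeGroup β)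
    (pV : V → Q) (pX : X → Q) (R S : ℕ)
    (hcV_mul : ∀ w w' x, cV (w * w') x = cV w (w' • x) * cV w' x)
    (hcV_map : ∀ w x, FreeGroup.map fst (cV w x) = w)
    (hcV_norm : ∀ w x, (cV w x).norm = w.norm)
    (hpV : ∀ w x, pV (w • x) = cV w x • pV x)
    (hcX_mul : ∀ w w' x, cX (w * w') x = cX w (w' • x) * cX w' x)
    (hpX : ∀ w x, pX (w • x) = cX w x • pX x)
    (Z : Set X) (hZ : ∀ w : FreeGroup α, ∀ z ∈ Z, w • z ∈ Z)
    (Sz : X → ℕ) (hSz : ∀ (w : FreeGroup α) z, Sz (w • z) = Sz z) (hSzle : ∀ z ∈ Z, Sz z ≤ S)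
    (bad : V → Prop)
    (hX : ∀ z ∈ Z, (∀ w : FreeGroup α, w • z = z ∧ cX w z = 1) ∨
      ((∀ w, FreeGroup.map fst (cX w z) = w ∧ (cX w z).norm = w.norm) ∧
       (∀ x w, w.norm = Sz z → cV w x = cX w z → bad x)))
    (hQ : ∀ σ : FreeGroup β, σ ≠ 1 → σ.norm ≤ 2 * R → ∀ u : Q, σ • u ≠ u)
    (hV : ∀ w : FreeGroup α, w ≠ 1 → w.norm ≤ 4 * (2 * R + S) + 4 → ∀ x : V, w • x ≠ x) :
    ∃ D : V → X → α × Bool → ℝ,
      (∀ x z a, |D x z a| ≤ 1) ∧
      (∀ x, ∀ z ∈ Z, InR (β := β) R (pV x) (pX z) → ∑ a, D x z a = 2 * Fintype.card α - 2) ∧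
      (∀ x, ∀ z ∈ Z, ∀ a b : α × Bool, InR (β := β) R (pV x) (pX z) → InR (β := β) R (pV x) (pX (lt b • z)) →
        D x (lt b • z) a = D x z a) ∧
      (∀ x, ∀ z ∈ Z, ∀ a, InR (β := β) R (pV x) (pX z) → InR (β := β) R (pV (lt a • x)) (pX z) →
        ¬ bad x → ¬ bad (lt a • x) → D (lt a • x) z (ng a) = - D x z a) := by
  classical
  -- the in-range pairs and their classes
  let P : V → X → Prop := fun x z => z ∈ Z ∧ InR (β := β) R (pV x) (pX z)
  let st : Setoid (V × X) := clsSetoid α P bad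
  let rep : V × X → V × X := fun p => (Quotient.mk st p).out
  have hrep : ∀ p, Relation.ReflTransGen (Mv α P bad) (rep p) p := fun p =>
    Quotient.exact (s := st) (Quotient.out_eq (Quotient.mk st p))
  have hrep_eq : ∀ p p', Relation.ReflTransGen (Mv α P bad) p p' → rep p = rep p' := by
    intro p p' h
    have : Quotient.mk st p = Quotient.mk st p' := Quotient.sound h
    simp only [rep, this]
  -- a word of length r0
  obtain ⟨i⟩ := id ‹Nonempty α›
  set r0 := 2 * R + S with hr0
  let v0 : FreeGroup α := (FreeGroup.of i) ^ r0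
  have hv0 : v0.norm = r0 := FreeGroup.norm_of_pow i r0
  let y : V × X → V := fun p => v0 • (rep p).1
  let h : V × X → V → ℕ := fun p x => sd α (2 * r0 + 1) (y p) x
  -- the main property
  have key : ∀ x z, P x z → ∃ u : FreeGroup α, u ≠ 1 ∧ u.norm < 2 * r0 ∧ x = u • y (x, z) := by
    intro x z hxz
    have h1 := hrep (x, z)
    have h2 : P (rep (x, z)).1 (rep (x, z)).2 := (Mv.gen_iff h1).2 hxz
    obtain ⟨hz0, σ0, hσ0, hσ0'⟩ := h2
    obtain ⟨w, w', σ, e1, -, -, -, -, -, e2⟩ := class_inv fst cV cX pV pX R hcV_mul hcV_map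
      hcV_norm hpV hcX_mul hpX Z hZ Sz hSz bad hX hQ P (fun _ _ h => h) h1 ⟨hz0, σ0, hσ0, hσ0'⟩
      σ0 hσ0 hσ0'
    have e3 := hSzle _ hz0
    refine ⟨w * v0⁻¹, ?_, ?_, ?_⟩
    · intro h3
      have h4 : w = v0 := mul_inv_eq_one.1 h3
      rw [h4, hv0] at e2
      omega
    · have := FreeGroup.norm_mul_le w v0⁻¹
      rw [FreeGroup.norm_inv_eq] at this
      omega
    · simp only [y]
      rw [mul_smul, inv_smul_smul]
      exact e1
  refine ⟨fun x z a => if P x z then ((h (x, z) (lt a • x) : ℝ) - h (x, z) x) else 0,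
    ?_, ?_, ?_, ?_⟩
  · intro x z a
    simp only
    split_ifs
    · have i1 := sd_smul_right_le (T := 2 * r0 + 1) (lt a) (y (x, z)) x
      have i2 := sd_smul_right_ge (T := 2 * r0 + 1) (lt a) (y (x, z)) x
      rw [norm_lt] at i1 i2
      rw [abs_le]
      simp only [h]
      constructor
      · have : (sd α (2 * r0 + 1) (y (x, z)) x : ℝ) ≤
          sd α (2 * r0 + 1) (y (x, z)) (lt a • x) + 1 := by exact_mod_cast i2
        linarith only [this]
      · have : (sd α (2 * r0 + 1) (y (x, z)) (lt a • x) : ℝ) ≤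
          sd α (2 * r0 + 1) (y (x, z)) x + 1 := by exact_mod_cast i1
        linarith only [this]
    · simp only [abs_zero, zero_le_one]
  · intro x z hz hr
    have hp : P x z := ⟨hz, hr⟩
    obtain ⟨u, hu1, hu2, hu3⟩ := key x z hp
    have hval : ∀ v : FreeGroup α, v.norm ≤ 2 * r0 → h (x, z) (v • y (x, z)) = v.norm := by
      intro v hv
      apply sd_eq_norm (by omega)
      intro v' hv' hv'' 
      exact hV v' hv' (by omega) _
    have hx : h (x, z) x = u.norm := by
      conv_lhs => rw [hu3]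
      have := hval u (by omega)
      rw [← hu3] at this
      rw [← hu3]
      exact this
    have hxa : ∀ a : α × Bool, h (x, z) (lt a • x) = (lt a * u).norm := by
      intro a
      have := hval (lt a * u) ((norm_lt_mul_le _ _).trans (by omega))
      rw [mul_smul, ← hu3] at this
      exact this
    have hsum := sum_norm_lt_mul hu1
    have hsum' : ∑ a : α × Bool, (((lt a * u).norm : ℝ) - u.norm) = 2 * Fintype.card α - 2 := by
      exact_mod_cast hsum
    rw [← hsum']
    apply Finset.sum_congr rfl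
    intro a _
    simp only [if_pos hp]
    rw [hx, hxa]
  · intro x z hz a b hr hr'
    have hp : P x z := ⟨hz, hr⟩
    have hp' : P x (lt b • z) := ⟨hZ _ _ hz, hr'⟩
    have hm : Relation.ReflTransGen (Mv α P bad) (x, z) (x, lt b • z) :=
      Relation.ReflTransGen.single ⟨hp, hp', Or.inr ⟨b, rfl⟩⟩
    simp only [if_pos hp, if_pos hp', h, y, hrep_eq _ _ hm]
  · intro x z hz a hr hr' hb hb'
    have hp : P x z := ⟨hz, hr⟩
    have hp' : P (lt a • x) z := ⟨hz, hr'⟩
    have hm : Relation.ReflTransGen (Mv α P bad) (x, z) (lt a • x, z) :=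
      Relation.ReflTransGen.single ⟨hp, hp', Or.inl ⟨a, hb, hb', rfl⟩⟩
    simp only [if_pos hp, if_pos hp', h, y, hrep_eq _ _ hm, lt_ng, inv_smul_smul]
    ring

end Vale.Agent.P090
end
end

section

section

/-! Gluing bounded blocks at a base point. -/

namespace Vale.Agent.P090

/-- A bounded block: a set with an integer valued metric bounded by `R ≥ 1`. -/
structure Blk where
  X : Type
  R : ℕ
  d : X → X → ℕ
  R_pos : 1 ≤ R
  d_self : ∀ x, d x x = 0
  d_eq : ∀ x y, d x y = 0 → x = y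
  d_comm : ∀ x y, d x y = d y x
  d_tri : ∀ x y z, d x z ≤ d x y + d y z
  d_le : ∀ x y, d x y ≤ R

/-- The glued space: a base point together with the disjoint union of the blocks. -/
def Glue (B : ℕ → Blk) : Type := Option (Σ k, (B k).X)

/-- The integer valued distance of the glued space. -/
noncomputable def gd (B : ℕ → Blk) : Glue B → Glue B → ℕ
  | none, none => 0
  | none, some p => (B p.1).R
  | some p, none => (B p.1).R
  | some p, some q =>
    haveI := Classical.dec (p.1 = q.1)
    if h : p.1 = q.1 then (B q.1).d (h ▸ p.2) q.2 else max (B p.1).R (B q.1).R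

theorem gd_same (B : ℕ → Blk) (k : ℕ) (x y : (B k).X) :
    gd B (some ⟨k, x⟩) (some ⟨k, y⟩) = (B k).d x y := by
  simp only [gd, ↓reduceDIte]

theorem gd_ne (B : ℕ → Blk) {k l : ℕ} (h : k ≠ l) (x : (B k).X) (y : (B l).X) :
    gd B (some ⟨k, x⟩) (some ⟨l, y⟩) = max (B k).R (B l).R := by
  simp only [gd, h, ↓reduceDIte]

theorem gd_none_some (B : ℕ → Blk) (k : ℕ) (x : (B k).X) :
    gd B none (some ⟨k, x⟩) = (B k).R := rfl

theorem gd_some_none (B : ℕ → Blk) (k : ℕ) (x : (B k).X) :
    gd B (some ⟨k, x⟩) none = (B k).R := rfl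

theorem gd_none_none (B : ℕ → Blk) : gd B none none = 0 := rfl

theorem gd_comm (B : ℕ → Blk) (p q : Glue B) : gd B p q = gd B q p := by
  rcases p with _ | ⟨k, x⟩ <;> rcases q with _ | ⟨l, y⟩
  · rfl
  · rfl
  · rfl
  · by_cases h : k = l
    · subst h
      rw [gd_same, gd_same, (B k).d_comm]
    · rw [gd_ne B h, gd_ne B (Ne.symm h), max_comm]

theorem gd_tri (B : ℕ → Blk) (p q r : Glue B) : gd B p r ≤ gd B p q + gd B q r := by
  rcases p with _ | ⟨k, x⟩ <;> rcases q with _ | ⟨l, y⟩ <;> rcases r with _ | ⟨m, z⟩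
  · simp [gd_none_none]
  · simp [gd_none_none]
  · simp [gd_none_none]
  · rw [gd_none_some, gd_none_some]
    by_cases h : l = m
    · subst h; omega
    · rw [gd_ne B h]; omega
  · simp [gd_none_none]
  · rw [gd_some_none, gd_none_some]
    by_cases h : k = m
    · subst h; rw [gd_same]; have := (B k).d_le x z; omega
    · rw [gd_ne B h]; omega
  · rw [gd_some_none, gd_some_none]
    by_cases h : k = l
    · subst h; omega
    · rw [gd_ne B h]; omega
  · by_cases h1 : k = l
    · subst h1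
      by_cases h2 : k = m
      · subst h2; simp only [gd_same]; exact (B k).d_tri x y z
      · rw [gd_ne B h2, gd_ne B h2]; omega
    · by_cases h2 : l = m
      · subst h2; rw [gd_ne B h1, gd_ne B h1]; omega
      · rw [gd_ne B h1, gd_ne B h2]
        by_cases h3 : k = m
        · subst h3; rw [gd_same]; have := (B k).d_le x z; omega
        · rw [gd_ne B h3]; omega

theorem gd_eq_zero (B : ℕ → Blk) {p q : Glue B} (h : gd B p q = 0) : p = q := by
  rcases p with _ | ⟨k, x⟩ <;> rcases q with _ | ⟨l, y⟩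
  · rfl
  · rw [gd_none_some] at h; have := (B l).R_pos; omega
  · rw [gd_some_none] at h; have := (B k).R_pos; omega
  · by_cases h1 : k = l
    · subst h1
      rw [gd_same] at h
      rw [(B k).d_eq x y h]
    · rw [gd_ne B h1] at h; have := (B k).R_pos; omega

theorem gd_self (B : ℕ → Blk) (p : Glue B) : gd B p p = 0 := by
  rcases p with _ | ⟨k, x⟩
  · rfl
  · rw [gd_same, (B k).d_self]

noncomputable instance (B : ℕ → Blk) : MetricSpace (Glue B) where
  dist p q := (gd B p q : ℝ)
  dist_self p := by simp [gd_self]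
  dist_comm p q := by simp [gd_comm B p q]
  dist_triangle p q r := by exact_mod_cast gd_tri B p q r
  eq_of_dist_eq_zero := by
    intro p q h
    exact gd_eq_zero B (by exact_mod_cast h)

theorem glue_dist (B : ℕ → Blk) (p q : Glue B) : dist p q = (gd B p q : ℝ) := rfl

theorem glue_one_le (B : ℕ → Blk) {p q : Glue B} (h : p ≠ q) : 1 ≤ dist p q := by
  rw [glue_dist]
  have : gd B p q ≠ 0 := fun h0 => h (gd_eq_zero B h0)
  exact_mod_cast Nat.one_le_iff_ne_zero.2 this

instance (B : ℕ → Blk) [∀ k, Countable (B k).X] : Countable (Glue B) :=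
  inferInstanceAs (Countable (Option _))

/-- The inclusion of a block. -/
def Glue.inc (B : ℕ → Blk) (k : ℕ) (x : (B k).X) : Glue B := some ⟨k, x⟩

/-- The base point. -/
def Glue.base (B : ℕ → Blk) : Glue B := none

theorem Glue.inc_injective (B : ℕ → Blk) (k : ℕ) : Function.Injective (Glue.inc B k) := by
  intro x y h
  have h1 : (⟨k, x⟩ : Σ k, (B k).X) = ⟨k, y⟩ := Option.some.inj h
  simpa using h1

theorem Glue.dist_inc (B : ℕ → Blk) (k : ℕ) (x y : (B k).X) :
    dist (Glue.inc B k x) (Glue.inc B k y) = ((B k).d x y : ℝ) := by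
  rw [glue_dist]; exact_mod_cast gd_same B k x y

theorem Glue.dist_inc_base (B : ℕ → Blk) (k : ℕ) (x : (B k).X) :
    dist (Glue.inc B k x) (Glue.base B) = ((B k).R : ℝ) := rfl

theorem Glue.le_dist_out (B : ℕ → Blk) (k : ℕ) (x : (B k).X) (m : Glue B)
    (hm : m ∉ Set.range (Glue.inc B k)) : ((B k).R : ℝ) ≤ dist (Glue.inc B k x) m := by
  rw [glue_dist]
  rcases m with _ | ⟨l, y⟩
  · exact le_of_eq rfl
  · by_cases h : k = l
    · subst h
      exact absurd ⟨y, rfl⟩ hm
    · have := gd_ne B h x y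
      unfold Glue.inc
      rw [this]
      exact_mod_cast le_max_left _ _

theorem Glue.base_not_mem (B : ℕ → Blk) (k : ℕ) : Glue.base B ∉ Set.range (Glue.inc B k) := by
  rintro ⟨x, hx⟩
  exact Option.some_ne_none _ hx

end Vale.Agent.P090
end
end

section

section

/-! The concrete blocks. -/

namespace Vale.Agent.P090

/-- A finite group of girth larger than `r`. -/
noncomputable def gg (α : Type) [Fintype α] [DecidableEq α] (r : ℕ) : GG α :=
  (exists_girth α r).choose

theorem gg_spec (α : Type) [Fintype α] [DecidableEq α] (r : ℕ) :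
    ∀ w : FreeGroup α, w ≠ 1 → w.norm ≤ r → (gg α r).hom w ≠ 1 :=
  (exists_girth α r).choose_spec

/-- The number of pairs (vertex, labelling) over the group of girth `r`. -/
noncomputable def mm (r : ℕ) : ℕ := Fintype.card (gg AA r).G * 8 ^ Fintype.card (gg AA r).G

/-- The diameter parameter of block `k`. -/
def RR (k : ℕ) : ℕ := (k + 1) ^ 2

/-- The girth parameters. -/
noncomputable def gs (k : ℕ) : ℕ → ℕ
  | 0 => 8 * RR k + 4
  | N + 1 => gs k N + (4 * (2 * RR k + (mm (gs k N) + N + k + 4)) + 4)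

/-- The matching lengths. -/
noncomputable def SS (k N : ℕ) : ℕ := mm (gs k N) + N + k + 4

theorem gs_succ (k N : ℕ) : gs k (N + 1) = gs k N + (4 * (2 * RR k + SS k N) + 4) := rfl

theorem gs_mono (k : ℕ) : Monotone (gs k) :=
  monotone_nat_of_le_succ fun N => by rw [gs_succ]; omega

theorem gs_ge (k N : ℕ) : 8 * RR k + 4 ≤ gs k N := gs_mono k (Nat.zero_le N)

theorem gs_ge_SS (k : ℕ) {n N : ℕ} (h : n < N) : 4 * (2 * RR k + SS k n) + 4 ≤ gs k N := by
  have h1 := gs_mono k (Nat.succ_le_of_lt h)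
  rw [Nat.succ_eq_add_one, gs_succ] at h1
  omega

noncomputable def QQ (k : ℕ) : GG BB := gg BB (2 * RR k)

noncomputable def PN (k N : ℕ) : GG AA := gg AA (gs k N)

/-- The `N`-th vertex set of block `k`. -/
abbrev VN (k N : ℕ) : Type := Vtx (PN k N) (QQ k)

/-- The finite anchor set. -/
def Qt (k : ℕ) : Type := (QQ k).G

noncomputable instance (k : ℕ) : Fintype (Qt k) := inferInstanceAs (Fintype (QQ k).G)
noncomputable instance (k : ℕ) : DecidableEq (Qt k) := inferInstanceAs (DecidableEq (QQ k).G)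
noncomputable instance (k : ℕ) : Group (Qt k) := inferInstanceAs (Group (QQ k).G)

/-- The marked homomorphism onto the anchor group. -/
noncomputable def homQ (k : ℕ) : FreeGroup BB →* Qt k := (QQ k).hom

noncomputable instance (k : ℕ) : MulAction (FreeGroup BB) (Qt k) where
  smul σ u := homQ k σ * u
  one_smul u := by
    show homQ k 1 * u = u
    rw [map_one, one_mul]
  mul_smul σ τ u := by
    show homQ k (σ * τ) * u = homQ k σ * (homQ k τ * u)
    rw [map_mul, mul_assoc]

theorem Qt_smul (k : ℕ) (σ : FreeGroup BB) (u : Qt k) :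
    σ • u = homQ k σ * u := rfl

/-- The point set of block `k`. -/
def XX (k : ℕ) : Type := Qt k ⊕ (Σ N, VN k N)

instance (k : ℕ) : Countable (XX k) :=
  inferInstanceAs (Countable (Qt k ⊕ (Σ N, VN k N)))

/-- The anchor points of the block. -/
def anc (k : ℕ) (u : Qt k) : XX k := Sum.inl u

/-- The vertices of the block. -/
def ver (k N : ℕ) (x : VN k N) : XX k := Sum.inr ⟨N, x⟩

/-- The action on the block. -/
noncomputable def actX (k : ℕ) (w : FreeGroup AA) : XX k → XX k
  | Sum.inl u => anc k u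
  | Sum.inr p => ver k p.1 (w • p.2)

noncomputable instance (k : ℕ) : MulAction (FreeGroup AA) (XX k) where
  smul w z := actX k w z
  one_smul z := by
    rcases z with u | ⟨N, x⟩
    · rfl
    · show ver k N ((1 : FreeGroup AA) • x) = ver k N x
      rw [one_smul]
  mul_smul w w' z := by
    rcases z with u | ⟨N, x⟩
    · rfl
    · show ver k N ((w * w') • x) = ver k N (w • w' • x)
      rw [mul_smul]

theorem smul_anc (k : ℕ) (w : FreeGroup AA) (u : Qt k) : w • anc k u = anc k u := rfl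

theorem smul_ver (k : ℕ) (w : FreeGroup AA) (N : ℕ) (x : VN k N) :
    w • ver k N x = ver k N (w • x) := rfl

theorem XX_cases (k : ℕ) (z : XX k) : (∃ u, z = anc k u) ∨ ∃ N x, z = ver k N x := by
  rcases z with u | ⟨N, x⟩
  · exact Or.inl ⟨u, rfl⟩
  · exact Or.inr ⟨N, x, rfl⟩

/-- The projection to the anchor set. -/
def pX (k : ℕ) : XX k → Qt k
  | Sum.inl u => u
  | Sum.inr p => p.2.2.2

/-- The cocycle. -/
noncomputable def cX (k : ℕ) (w : FreeGroup AA) : XX k → FreeGroup BB
  | Sum.inl _ => 1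
  | Sum.inr p => coc (PN k p.1) (QQ k) w p.2

theorem cX_anc (k : ℕ) (w : FreeGroup AA) (u : Qt k) : cX k w (anc k u) = 1 := rfl

theorem cX_ver (k : ℕ) (w : FreeGroup AA) (N : ℕ) (x : VN k N) :
    cX k w (ver k N x) = coc (PN k N) (QQ k) w x := rfl

theorem pX_anc (k : ℕ) (u : Qt k) : pX k (anc k u) = u := rfl

theorem pX_ver (k N : ℕ) (x : VN k N) : pX k (ver k N x) = x.2.2 := rfl

theorem cX_mul (k : ℕ) (w w' : FreeGroup AA) (x : XX k) :
    cX k (w * w') x = cX k w (w' • x) * cX k w' x := by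
  rcases XX_cases k x with ⟨u, rfl⟩ | ⟨N, x, rfl⟩
  · rw [smul_anc, cX_anc, cX_anc, cX_anc, mul_one]
  · rw [smul_ver, cX_ver, cX_ver, cX_ver]
    exact coc_mul w w' x

theorem pX_smul (k : ℕ) (w : FreeGroup AA) (x : XX k) :
    pX k (w • x) = cX k w x • pX k x := by
  rcases XX_cases k x with ⟨u, rfl⟩ | ⟨N, x, rfl⟩
  · rw [smul_anc, cX_anc, one_smul]
  · rw [smul_ver, cX_ver, pX_ver, pX_ver]
    exact third_smul w x

theorem norm_cX_le (k : ℕ) (w : FreeGroup AA) (x : XX k) : (cX k w x).norm ≤ w.norm := by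
  rcases XX_cases k x with ⟨u, rfl⟩ | ⟨N, x, rfl⟩
  · rw [cX_anc]; simp only [FreeGroup.norm_one, zero_le]
  · rw [cX_ver]
    exact (norm_coc w x).le

/-- The integer valued metric of block `k`. -/
noncomputable def dX (k : ℕ) (x y : XX k) : ℕ :=
  max (sd AA (k + 1) x y) (sd BB (RR k) (pX k x) (pX k y))

theorem le_RR (k : ℕ) : k + 1 ≤ RR k := by
  unfold RR; nlinarith only []

noncomputable def blk (k : ℕ) : Blk where
  X := XX k
  R := RR k
  d := dX k
  R_pos := (Nat.succ_le_succ (Nat.zero_le k)).trans (le_RR k)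
  d_self x := by simp [dX, sd_self]
  d_eq x y h := by
    have h1 : sd AA (k + 1) x y = 0 := by
      unfold dX at h; omega
    exact (sd_eq_zero (Nat.succ_pos k)).1 h1
  d_comm x y := by unfold dX; rw [sd_comm x y, sd_comm (pX k x) (pX k y)]
  d_tri x y z := by
    unfold dX
    have h1 := sd_triangle (α := AA) (T := k + 1) x y z
    have h2 := sd_triangle (α := BB) (T := RR k) (pX k x) (pX k y) (pX k z)
    omega
  d_le x y := by
    unfold dX
    have h1 := sd_le (α := AA) (T := k + 1) (x := x) (y := y)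
    have h2 := sd_le (α := BB) (T := RR k) (x := pX k x) (y := pX k y)
    have := le_RR k
    omega

instance : ∀ k, Countable (blk k).X := fun k => inferInstanceAs (Countable (XX k))

/-- The counterexample. -/
abbrev MM : Type := Glue blk

end Vale.Agent.P090
end
end

section

section

/-!
# Functional-analytic consequences of the bounded approximation property of `F(M)`
-/

namespace Vale.Agent.P090

set_option maxSynthPendingDepth 3

noncomputable section

section FA

variable {M : Type} [MetricSpace M] {o : M}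

/-- The closed linear span of the evaluation functionals as a submodule of the dual. -/
def LipSpan (M : Type) [MetricSpace M] (o : M) : Submodule ℝ (Lip0 M o →L[ℝ] ℝ) :=
  (Submodule.span ℝ (Set.range (delta o))).topologicalClosure

/-- The two descriptions of the Lipschitz-free space agree. -/
theorem hasBAPWith_lipFree_iff {lam : ℝ} :
    HasBAPWith lam (LipFree M o) ↔ HasBAPWith lam (LipSpan M o) := Iff.rfl

theorem hasBAP_lipFree_iff : HasBAP (LipFree M o) ↔ HasBAP (LipSpan M o) := Iff.rfl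

@[simp] theorem delta_apply (x : M) (f : Lip0 M o) : delta o x f = f x := rfl

theorem delta_mem (x : M) : delta o x ∈ LipSpan M o :=
  Submodule.le_topologicalClosure _ (Submodule.subset_span ⟨x, rfl⟩)

/-- `δ_x` as an element of the Lipschitz-free space. -/
def deltaF (o : M) (x : M) : ↥(LipSpan M o) := ⟨delta o x, delta_mem x⟩

theorem norm_delta_sub_le (x y : M) : ‖delta o x - delta o y‖ ≤ dist x y := by
  refine ContinuousLinearMap.opNorm_le_bound _ dist_nonneg fun f => ?_
  rw [mul_comm]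
  exact Lip0.le_norm f x y

theorem norm_deltaF_sub_le (x y : M) : ‖deltaF o x - deltaF o y‖ ≤ dist x y :=
  norm_delta_sub_le x y

theorem norm_delta_le (x : M) : ‖delta o x‖ ≤ dist x o := by
  refine ContinuousLinearMap.opNorm_le_bound _ dist_nonneg fun f => ?_
  rw [mul_comm]
  simpa only [delta_apply, Real.norm_eq_abs, Lip0.map_base, sub_zero] using Lip0.le_norm f x o

/-- Elements of the span of the evaluations only depend on finitely many values. -/
theorem span_finite_dep {μ : Lip0 M o →L[ℝ] ℝ}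
    (hμ : μ ∈ Submodule.span ℝ (Set.range (delta o))) :
    ∃ M₀ : Finset M, ∀ φ : Lip0 M o, (∀ z ∈ M₀, φ z = 0) → μ φ = 0 := by
  classical
  induction hμ using Submodule.span_induction with
  | mem μ h =>
    obtain ⟨x, rfl⟩ := h
    exact ⟨{x}, fun φ h => by simpa using h x (by simp)⟩
  | zero => exact ⟨∅, fun φ _ => rfl⟩
  | add μ ν _ _ ih1 ih2 =>
    obtain ⟨A, hA⟩ := ih1
    obtain ⟨B, hB⟩ := ih2
    refine ⟨A ∪ B, fun φ h => ?_⟩
    have h1 := hA φ fun z hz => h z (Finset.mem_union_left _ hz)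
    have h2 := hB φ fun z hz => h z (Finset.mem_union_right _ hz)
    simp [h1, h2]
  | smul c μ _ ih =>
    obtain ⟨A, hA⟩ := ih
    exact ⟨A, fun φ h => by simp [hA φ h]⟩

/-- Tail estimate for one element of the Lipschitz-free space. -/
theorem lipFree_tail (μ : ↥(LipSpan M o)) {ε : ℝ} (hε : 0 < ε) :
    ∃ M₀ : Finset M, ∀ φ : Lip0 M o, (∀ z ∈ M₀, φ z = 0) →
      |(μ : Lip0 M o →L[ℝ] ℝ) φ| ≤ ε * ‖φ‖ := by
  have hμ : (μ : Lip0 M o →L[ℝ] ℝ) ∈
      closure (Submodule.span ℝ (Set.range (delta o)) : Set (Lip0 M o →L[ℝ] ℝ)) := by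
    exact μ.2
  obtain ⟨ν, hν, hd⟩ := Metric.mem_closure_iff.1 hμ ε hε
  obtain ⟨M₀, hM₀⟩ := span_finite_dep hν
  refine ⟨M₀, fun φ h => ?_⟩
  have h0 := hM₀ φ h
  have h1 : (μ : Lip0 M o →L[ℝ] ℝ) φ = ((μ : Lip0 M o →L[ℝ] ℝ) - ν) φ := by
    simp only [sub_apply, h0, sub_zero]
  rw [h1, ← Real.norm_eq_abs]
  refine (ContinuousLinearMap.le_opNorm _ _).trans ?_
  refine mul_le_mul_of_nonneg_right ?_ (norm_nonneg _)
  rw [← dist_eq_norm]
  exact hd.le

/-- Uniform tail estimate on bounded subsets of a finite-dimensional subspace. -/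
theorem finiteDim_tail (E : Submodule ℝ ↥(LipSpan M o)) [FiniteDimensional ℝ E] (r : ℝ)
    {ε : ℝ} (hε : 0 < ε) :
    ∃ M₀ : Finset M, ∀ μ ∈ E, ‖μ‖ ≤ r → ∀ φ : Lip0 M o, (∀ z ∈ M₀, φ z = 0) →
      |(μ : Lip0 M o →L[ℝ] ℝ) φ| ≤ ε * ‖φ‖ := by
  classical
  have : ProperSpace E := FiniteDimensional.proper ℝ E
  have hK : IsCompact ((Subtype.val : E → ↥(LipSpan M o)) '' Metric.closedBall 0 r) :=
    (isCompact_closedBall (0 : E) r).image continuous_subtype_val
  obtain ⟨t, ht, hcov⟩ := Metric.totallyBounded_iff.1 hK.totallyBounded (ε / 2) (half_pos hε)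
  have hch := fun y : ↥(LipSpan M o) => lipFree_tail y (half_pos hε)
  choose N hN using hch
  refine ⟨ht.toFinset.biUnion N, fun μ hμ hr φ hφ => ?_⟩
  have hmem : μ ∈ ((Subtype.val : E → ↥(LipSpan M o)) '' Metric.closedBall 0 r) := by
    refine ⟨⟨μ, hμ⟩, ?_, rfl⟩
    simpa only [Metric.mem_closedBall, dist_zero_right, Submodule.coe_norm] using hr
  obtain ⟨y, hy, hyμ⟩ := Set.mem_iUnion₂.1 (hcov hmem)
  have h1 := hN y φ fun z hz => hφ z (Finset.mem_biUnion.2 ⟨y, by simpa only [Set.Finite.mem_toFinset] using hy, hz⟩)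
  have h2 : |((μ - y : ↥(LipSpan M o)) : Lip0 M o →L[ℝ] ℝ) φ| ≤ ε / 2 * ‖φ‖ := by
    rw [← Real.norm_eq_abs]
    refine (ContinuousLinearMap.le_opNorm _ _).trans ?_
    refine mul_le_mul_of_nonneg_right ?_ (norm_nonneg _)
    have : ‖μ - y‖ < ε / 2 := by
      rw [← dist_eq_norm]; exact Metric.mem_ball.1 hyμ
    exact this.le
  have h3 : (μ : Lip0 M o →L[ℝ] ℝ) φ =
      ((μ - y : ↥(LipSpan M o)) : Lip0 M o →L[ℝ] ℝ) φ + (y : Lip0 M o →L[ℝ] ℝ) φ := by
    simp only [AddSubgroupClass.coe_sub, sub_apply, sub_add_cancel]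
  rw [h3]
  refine (abs_add_le _ _).trans ((add_le_add h2 h1).trans ?_)
  linarith only []

/-- The data extracted from the bounded approximation property of `F(M)`: a family
`L : M → (Lip₀(M) →ₗ ℝ)` (namely `L m φ = ⟨T δ_m, φ⟩`) which is `lam`-Lipschitz, is close to the
evaluation on a given finite set `A`, and has uniformly small tails on bounded sets. -/
theorem fa_main {M : Type} [MetricSpace M] {o : M} {lam : ℝ} (h : HasBAPWith lam (LipSpan M o))
    (A : Finset M) {ε : ℝ} (hε : 0 < ε) :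
    ∃ L : M → (Lip0 M o →ₗ[ℝ] ℝ),
      (∀ m m' φ, |L m φ - L m' φ| ≤ lam * ‖φ‖ * dist m m') ∧
      (∀ m ∈ A, ∀ φ, |L m φ - φ m| ≤ ε * ‖φ‖) ∧
      (∀ D : ℝ, ∀ η > 0, ∃ M₀ : Finset M, ∀ m : M, dist m o ≤ D → ∀ φ : Lip0 M o,
        (∀ z ∈ M₀, φ z = 0) → |L m φ| ≤ η * ‖φ‖) := by
  classical
  obtain ⟨T, hT, hn, hc⟩ := h ((fun x => deltaF o x) '' (A : Set M))
    ((A.finite_toSet.image _).isCompact) ε hε
  have hlam : 0 ≤ lam := (norm_nonneg T).trans hn
  refine ⟨fun m => ((T (deltaF o m) : ↥(LipSpan M o)) : Lip0 M o →L[ℝ] ℝ), ?_, ?_, ?_⟩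
  · intro m m' φ
    have h1 : ((T (deltaF o m) : ↥(LipSpan M o)) : Lip0 M o →L[ℝ] ℝ) φ
        - ((T (deltaF o m') : ↥(LipSpan M o)) : Lip0 M o →L[ℝ] ℝ) φ
        = ((T (deltaF o m - deltaF o m') : ↥(LipSpan M o)) : Lip0 M o →L[ℝ] ℝ) φ := by
      rw [map_sub]; simp only [AddSubgroupClass.coe_sub, sub_apply]
    change |((T (deltaF o m) : ↥(LipSpan M o)) : Lip0 M o →L[ℝ] ℝ) φ
        - ((T (deltaF o m') : ↥(LipSpan M o)) : Lip0 M o →L[ℝ] ℝ) φ| ≤ _
    rw [h1, ← Real.norm_eq_abs]
    refine (ContinuousLinearMap.le_opNorm _ _).trans ?_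
    have h2 : ‖T (deltaF o m - deltaF o m')‖ ≤ lam * dist m m' :=
      (T.le_opNorm _).trans (mul_le_mul hn (norm_deltaF_sub_le m m') (norm_nonneg _) hlam)
    calc ‖((T (deltaF o m - deltaF o m') : ↥(LipSpan M o)) : Lip0 M o →L[ℝ] ℝ)‖ * ‖φ‖
        ≤ (lam * dist m m') * ‖φ‖ := mul_le_mul_of_nonneg_right h2 (norm_nonneg _)
      _ = lam * ‖φ‖ * dist m m' := by ring
  · intro m hm φ
    have h1 := hc (deltaF o m) ⟨m, hm, rfl⟩
    have h2 : ((T (deltaF o m) : ↥(LipSpan M o)) : Lip0 M o →L[ℝ] ℝ) φ - φ m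
        = ((T (deltaF o m) - deltaF o m : ↥(LipSpan M o)) : Lip0 M o →L[ℝ] ℝ) φ := by
      simp only [deltaF, AddSubgroupClass.coe_sub, sub_apply, delta_apply]
    change |((T (deltaF o m) : ↥(LipSpan M o)) : Lip0 M o →L[ℝ] ℝ) φ - φ m| ≤ _
    rw [h2, ← Real.norm_eq_abs]
    refine (ContinuousLinearMap.le_opNorm _ _).trans ?_
    exact mul_le_mul_of_nonneg_right h1.le (norm_nonneg _)
  · intro D η hη
    have := hT
    obtain ⟨M₀, hM₀⟩ := finiteDim_tail (LinearMap.range (T : ↥(LipSpan M o) →ₗ[ℝ] ↥(LipSpan M o)))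
      (lam * D) hη
    refine ⟨M₀, fun m hm φ hφ => hM₀ (T (deltaF o m)) ⟨deltaF o m, rfl⟩ ?_ φ hφ⟩
    refine (T.le_opNorm _).trans (mul_le_mul hn ?_ (norm_nonneg _) hlam)
    exact (norm_delta_le m).trans hm

end FA

end

end Vale.Agent.P090
end
end

section

section

/-!
# The main inequality (section 5), abstract form
-/

namespace Vale.Agent.P090

open Finset

noncomputable section

/-- Build an element of `Lip₀(M)` from a real Lipschitz estimate. -/
def mkLip {M : Type} [MetricSpace M] {o : M} (f : M → ℝ) (C : ℝ)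
    (h : ∀ x y, |f x - f y| ≤ C * dist x y) (h0 : f o = 0) : Lip0 M o :=
  ⟨f, h0, C.toNNReal, LipschitzWith.of_dist_le_mul fun x y => by
    rw [Real.dist_eq]
    exact (h x y).trans (mul_le_mul_of_nonneg_right (Real.le_coe_toNNReal C) dist_nonneg)⟩

@[simp] theorem mkLip_apply {M : Type} [MetricSpace M] {o : M} (f : M → ℝ) (C : ℝ)
    (h : ∀ x y, |f x - f y| ≤ C * dist x y) (h0 : f o = 0) (x : M) :
    (mkLip f C h h0 : Lip0 M o) x = f x := rfl

theorem norm_mkLip_le {M : Type} [MetricSpace M] {o : M} (f : M → ℝ) (C : ℝ) (hC : 0 ≤ C)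
    (h : ∀ x y, |f x - f y| ≤ C * dist x y) (h0 : f o = 0) :
    ‖(mkLip f C h h0 : Lip0 M o)‖ ≤ C :=
  Lip0.norm_le hC h

/-- On a 1-separated space a function bounded by `c` has norm at most `2 c` in `Lip₀(M)`. -/
theorem norm_le_of_bounded {M : Type} [MetricSpace M] {o : M}
    (hsep : ∀ x y : M, x ≠ y → 1 ≤ dist x y) (f : Lip0 M o) {c : ℝ} (hc : 0 ≤ c)
    (h : ∀ z, |f z| ≤ c) : ‖f‖ ≤ 2 * c := by
  refine Lip0.norm_le (by positivity) fun x y => ?_
  rcases eq_or_ne x y with rfl | hxy
  · simp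
  have h1 := abs_sub (f x) (f y)
  have h2 := h x
  have h3 := h y
  have h4 := hsep x y hxy
  calc |f x - f y| ≤ |f x| + |f y| := abs_sub _ _
    _ ≤ 2 * c := by linarith
    _ = 2 * c * 1 := by ring
    _ ≤ 2 * c * dist x y := by (clear * - h4 hc; gcongr)

theorem lip0_sum_apply {M : Type} [MetricSpace M] {o : M} {ι : Type*} (s : Finset ι)
    (f : ι → Lip0 M o) (x : M) : (∑ i ∈ s, f i) x = ∑ i ∈ s, f i x :=
  map_sum ({ toFun := fun f => f x, map_add' := fun _ _ => rfl, map_zero' := rfl } :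
    Lip0 M o →+ ℝ) f s

/-- The main inequality. -/
theorem main_abs {M V S : Type} [MetricSpace M] [Fintype V] [DecidableEq V] [Fintype S]
    {o : M} (L : M → Lip0 M o →ₗ[ℝ] ℝ) (lam ε η : ℝ) (hlam : 0 ≤ lam) (hε : 0 ≤ ε)
    (hL : ∀ m m' f, |L m f - L m' f| ≤ lam * ‖f‖ * dist m m')
    (K R : ℝ) (hK : 0 < K) (hR : 0 < R)
    (act : S → V → V) (inv : S → S) (hact : ∀ a x, act (inv a) (act a x) = x)
    (hinv : ∀ a, inv (inv a) = a) (hS : Fintype.card S = 4)
    (pt fp : V → M)
    (hpf : ∀ x, dist (pt x) (fp x) ≤ K)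
    (hstep : ∀ a x, dist (pt x) (pt (act a x)) ≤ 1)
    (hLF : ∀ x f, |L (fp x) f - f (fp x)| ≤ ε * ‖f‖)
    (Z : Set M) [DecidablePred (· ∈ Z)]
    (chi : V → M → ℝ) (hchi_lip : ∀ x z z', |chi x z - chi x z'| ≤ (1 / R) * dist z z')
    (hchi_o : ∀ x, chi x o = 0) (hchi1 : ∀ x, chi x (fp x) = 1)
    (θ : V → S → M → ℝ) (hθ1 : ∀ x a z, |θ x a z| ≤ 1)
    (hθlip : ∀ x a z z', |θ x a z - θ x a z'| ≤ (2 / K) * dist z z')
    (hθo : ∀ x a, θ x a o = 0)
    (hθsum : ∀ x z, ∑ a, θ x a z = 2 * (if z ∈ Z then chi x z else 0))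
    (bad : V → Prop) [DecidablePred bad]
    (hθanti : ∀ x a z, ¬ bad x → ¬ bad (act a x) →
      |θ x a z + θ (act a x) (inv a) z| ≤ 1 / R)
    (hθanti' : ∀ x a z z', ¬ bad x → ¬ bad (act a x) →
      |(θ x a z + θ (act a x) (inv a) z) - (θ x a z' + θ (act a x) (inv a) z')| ≤
        2 / R * dist z z')
    (htail : ∀ x, ∀ f : Lip0 M o, (∀ z, f z = if z ∈ Z then 0 else chi x z) →
      |L (pt x) f| ≤ η) :
    4 * (Fintype.card V : ℝ) * (1 - (lam * K + ε) / R - η) ≤
      4 * (Fintype.card V : ℝ) * (2 * lam / K + 1 / R + 2 / R * (lam * K + ε)) +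
        8 * ((univ.filter bad).card : ℝ) * (2 * (1 + 2 / K * (lam * K + ε))) := by
  classical
  -- (*)
  have hstar : ∀ x f, |L (pt x) f - f (fp x)| ≤ ‖f‖ * (lam * K + ε) := by
    intro x f
    have h1 := hL (pt x) (fp x) f
    have h2 := hLF x f
    have h3 : lam * ‖f‖ * dist (pt x) (fp x) ≤ lam * ‖f‖ * K :=
      mul_le_mul_of_nonneg_left (hpf x) (mul_nonneg hlam (norm_nonneg _))
    calc |L (pt x) f - f (fp x)|
        = |(L (pt x) f - L (fp x) f) + (L (fp x) f - f (fp x))| := by congr 1; ring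
      _ ≤ |L (pt x) f - L (fp x) f| + |L (fp x) f - f (fp x)| := abs_add_le _ _
      _ ≤ lam * ‖f‖ * K + ε * ‖f‖ := by linarith only [h1, h2, h3]
      _ = ‖f‖ * (lam * K + ε) := by ring
  have hpos : 0 ≤ lam * K + ε := by (clear * - hlam hK hε; positivity)
  set Θ : V → S → Lip0 M o := fun x a => mkLip (θ x a) (2 / K) (hθlip x a) (hθo x a) with hΘ
  set X : V → Lip0 M o := fun x => mkLip (chi x) (1 / R) (hchi_lip x) (hchi_o x) with hX
  have hΘn : ∀ x a, ‖Θ x a‖ ≤ 2 / K := fun x a => norm_mkLip_le _ _ (by positivity) _ _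
  have hXn : ∀ x, ‖X x‖ ≤ 1 / R := fun x => norm_mkLip_le _ _ (by positivity) _ _
  -- lower bound
  have hlow : ∀ x, 4 * (1 - (lam * K + ε) / R - η) ≤ 2 * ∑ a, L (pt x) (Θ x a) := by
    intro x
    have h1 := htail x (X x - (1 / 2 : ℝ) • ∑ a, Θ x a) (by
      intro z
      rw [Lip0.sub_apply, Lip0.smul_apply, lip0_sum_apply]
      have : ∑ a, (Θ x a) z = 2 * (if z ∈ Z then chi x z else 0) := hθsum x z
      rw [this]
      have h2 : (X x) z = chi x z := rfl
      rw [h2]
      split_ifs <;> ring)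
    rw [map_sub, map_smul, map_sum] at h1
    have h2 := hstar x (X x)
    have h3 : (X x) (fp x) = 1 := hchi1 x
    rw [h3] at h2
    have h4 : ‖X x‖ * (lam * K + ε) ≤ (lam * K + ε) / R := by
      have := mul_le_mul_of_nonneg_right (hXn x) hpos
      calc _ ≤ _ := this
        _ = _ := by ring
    have h5 := abs_le.1 h1
    have h6 := abs_le.1 h2
    have h7 : ((1 / 2 : ℝ) • ∑ a, L (pt x) (Θ x a)) = (1 / 2) * ∑ a, L (pt x) (Θ x a) := rfl
    rw [h7] at h5
    linarith only [h4, h5, h6]
  -- bracket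
  set B : V → S → ℝ := fun x a => L (pt x) (Θ x a) + L (pt (act a x)) (Θ (act a x) (inv a)) with hB
  have hgood : ∀ x a, ¬ bad x → ¬ bad (act a x) →
      B x a ≤ 2 * lam / K + 1 / R + 2 / R * (lam * K + ε) := by
    intro x a hx hax
    have h1 := hL (pt x) (pt (act a x)) (Θ x a)
    have h2 : lam * ‖Θ x a‖ * dist (pt x) (pt (act a x)) ≤ 2 * lam / K := by
      calc lam * ‖Θ x a‖ * dist (pt x) (pt (act a x)) ≤ lam * (2 / K) * 1 := by
            gcongr
            · exact hΘn x a
            · exact hstep a x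
        _ = 2 * lam / K := by ring
    set ψ : Lip0 M o := Θ x a + Θ (act a x) (inv a) with hψ
    have hψb : ∀ z, |ψ z| ≤ 1 / R := fun z => hθanti x a z hx hax
    have hψn : ‖ψ‖ ≤ 2 / R :=
      Lip0.norm_le (by positivity) fun z z' => hθanti' x a z z' hx hax
    have h3 := hstar (act a x) ψ
    have h4 : ‖ψ‖ * (lam * K + ε) ≤ 2 / R * (lam * K + ε) :=
      mul_le_mul_of_nonneg_right hψn hpos
    have h5 := hψb (fp (act a x))
    have h6 : L (pt (act a x)) ψ = L (pt (act a x)) (Θ x a)
        + L (pt (act a x)) (Θ (act a x) (inv a)) := by rw [hψ, map_add]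
    have h7 := (abs_le.1 h1).2
    have h8 := (abs_le.1 h3).2
    have h9 := (abs_le.1 h5).2
    simp only [hB]
    linarith only [h2, h4, h6, h7, h8, h9]
  have hΘb : ∀ x a, L (pt x) (Θ x a) ≤ 1 + 2 / K * (lam * K + ε) := by
    intro x a
    have h1 := (abs_le.1 (hstar x (Θ x a))).2
    have h2 : (Θ x a) (fp x) ≤ 1 := (abs_le.1 (hθ1 x a (fp x))).2
    have h3 : ‖Θ x a‖ * (lam * K + ε) ≤ 2 / K * (lam * K + ε) :=
      mul_le_mul_of_nonneg_right (hΘn x a) hpos
    linarith only [h1, h2, h3]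
  have hall : ∀ x a, B x a ≤ 2 * (1 + 2 / K * (lam * K + ε)) := by
    intro x a
    have h1 := hΘb x a
    have h2 := hΘb (act a x) (inv a)
    simp only [hB]
    linarith
  set c1 : ℝ := 2 * lam / K + 1 / R + 2 / R * (lam * K + ε) with hc1
  set c2 : ℝ := 2 * (1 + 2 / K * (lam * K + ε)) with hc2
  have hp1 : 0 ≤ c1 := by (clear * - hlam hK hR hε; positivity)
  have hp2 : 0 ≤ c2 := by (clear * - hK hlam hε; positivity)
  have hb : ∀ x a, B x a ≤ c1
      + ((if bad x then c2 else 0) + (if bad (act a x) then c2 else 0)) := by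
    intro x a
    by_cases h1 : bad x
    · rw [if_pos h1]
      have := hall x a
      split_ifs <;> linarith only [hp1, hp2, this]
    · by_cases h2 : bad (act a x)
      · rw [if_neg h1, if_pos h2]
        have := hall x a
        linarith only [hp1, this]
      · rw [if_neg h1, if_neg h2]
        have := hgood x a h1 h2
        linarith only [this]
  -- reindexing
  have hinvolutive : Function.Involutive (fun p : V × S => (act p.2 p.1, inv p.2)) := by
    rintro ⟨x, a⟩
    simp [hact, hinv]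
  have hre : ∀ f : V × S → ℝ, ∑ p : V × S, f (act p.2 p.1, inv p.2) = ∑ p : V × S, f p :=
    fun f => Equiv.sum_comp hinvolutive.toPerm f
  have hsum : ∑ x, (2 * ∑ a, L (pt x) (Θ x a)) = ∑ p : V × S, B p.1 p.2 := by
    have h1 : ∑ p : V × S, B p.1 p.2 = ∑ p : V × S, L (pt p.1) (Θ p.1 p.2)
        + ∑ p : V × S, L (pt (act p.2 p.1)) (Θ (act p.2 p.1) (inv p.2)) := by
      rw [← sum_add_distrib]
    have h2 := hre (fun p => L (pt p.1) (Θ p.1 p.2))
    simp only at h2
    rw [h1, h2, ← two_mul, Fintype.sum_prod_type, mul_sum]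
  have hbadsum : ∑ p : V × S, (if bad (act p.2 p.1) then c2 else 0)
      = ∑ p : V × S, (if bad p.1 then c2 else 0) :=
    hre (fun p => if bad p.1 then c2 else 0)
  have hbs : ∑ p : V × S, (if bad p.1 then c2 else 0)
      = 4 * ((univ.filter bad).card : ℝ) * c2 := by
    rw [Fintype.sum_prod_type]
    have h1 : ∀ x : V, ∑ _a : S, (if bad x then c2 else 0)
        = 4 * (if bad x then c2 else 0) := by
      intro x
      rw [sum_const, card_univ, hS, nsmul_eq_mul]
      norm_num
    refine (sum_congr rfl fun x _ => h1 x).trans ?_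
    rw [← mul_sum, ← sum_filter, sum_const, nsmul_eq_mul]
    ring
  calc 4 * (Fintype.card V : ℝ) * (1 - (lam * K + ε) / R - η)
      = ∑ _x : V, 4 * (1 - (lam * K + ε) / R - η) := by
        rw [sum_const, card_univ, nsmul_eq_mul]; ring
    _ ≤ ∑ x, (2 * ∑ a, L (pt x) (Θ x a)) := sum_le_sum fun x _ => hlow x
    _ = ∑ p : V × S, B p.1 p.2 := hsum
    _ ≤ ∑ p : V × S, (c1
      + ((if bad p.1 then c2 else 0) + (if bad (act p.2 p.1) then c2 else 0))) :=
        sum_le_sum fun p _ => hb p.1 p.2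
    _ = 4 * (Fintype.card V : ℝ) * c1 + 8 * ((univ.filter bad).card : ℝ) * c2 := by
        rw [sum_add_distrib (f := fun _ : V × S => c1),
          sum_add_distrib (f := fun p : V × S => if bad p.1 then c2 else 0),
          hbadsum, hbs, sum_const, card_univ, Fintype.card_prod, hS, nsmul_eq_mul]
        push_cast
        ring

end

end Vale.Agent.P090
end
end

section

section

/-!
# The main inequality for one block
-/

namespace Vale.Agent.P090

open Finset

noncomputable section

/-- Lipschitz estimate for a function extended by zero. -/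
theorem extend_lip {X M : Type} [MetricSpace M] (ι : X → M) (hι : Function.Injective ι)
    {R C : ℝ} (hC : 0 ≤ C)
    (hout : ∀ z m, m ∉ Set.range ι → R ≤ dist (ι z) m)
    (f : X → ℝ) (hf : ∀ z z', |f z - f z'| ≤ C * dist (ι z) (ι z'))
    (hb : ∀ z, |f z| ≤ C * R) (m m' : M) :
    |Function.extend ι f 0 m - Function.extend ι f 0 m'| ≤ C * dist m m' := by
  by_cases h : m ∈ Set.range ι
  · obtain ⟨z, rfl⟩ := h
    rw [hι.extend_apply]
    by_cases h' : m' ∈ Set.range ι
    · obtain ⟨z', rfl⟩ := h'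
      rw [hι.extend_apply]
      exact hf z z'
    · rw [Function.extend_apply' _ _ _ h']
      simp only [Pi.zero_apply, sub_zero]
      exact (hb z).trans (mul_le_mul_of_nonneg_left (hout z m' h') hC)
  · rw [Function.extend_apply' _ _ _ h]
    by_cases h' : m' ∈ Set.range ι
    · obtain ⟨z', rfl⟩ := h'
      rw [hι.extend_apply]
      simp only [Pi.zero_apply, zero_sub, abs_neg]
      rw [dist_comm]
      exact (hb z').trans (mul_le_mul_of_nonneg_left (hout z' m h) hC)
    · rw [Function.extend_apply' _ _ _ h']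
      simp only [Pi.zero_apply, sub_zero, abs_zero]
      (clear * - hC; positivity)

/-- A function changing by at most `c` along each letter changes by at most `c * |w|` along `w`. -/
theorem abs_smul_sub_le {α X : Type} [DecidableEq α] [MulAction (FreeGroup α) X] (f : X → ℝ)
    (c : ℝ) (h : ∀ (a : α × Bool) z, |f (lt a • z) - f z| ≤ c) (w : FreeGroup α) (z : X) :
    |f (w • z) - f z| ≤ c * w.norm := by
  suffices H : ∀ n (w : FreeGroup α), w.norm = n → |f (w • z) - f z| ≤ c * n from H _ w rfl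
  intro n
  induction n with
  | zero =>
    intro w hw
    rw [FreeGroup.norm_eq_zero] at hw
    subst hw
    simp
  | succ n ih =>
    intro w hw
    have hw1 : w ≠ 1 := by
      rintro rfl
      simp at hw
    obtain ⟨a, v, rfl, hv⟩ := exists_lt_mul hw1
    have h1 := ih v (by omega)
    have h2 := h a (v • z)
    rw [mul_smul]
    calc |f (lt a • v • z) - f z| = |(f (lt a • v • z) - f (v • z)) + (f (v • z) - f z)| := by
          congr 1; ring
      _ ≤ |f (lt a • v • z) - f (v • z)| + |f (v • z) - f z| := abs_add_le _ _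
      _ ≤ c + c * n := add_le_add h2 h1
      _ = c * ((n + 1 : ℕ) : ℝ) := by push_cast; ring

set_option linter.unusedVariables false in
/-- The main inequality (section 5). -/
theorem block_ineq
    {α β V X Q M : Type} [DecidableEq α] [DecidableEq β] [Fintype α] [Fintype V]
    [MulAction (FreeGroup α) V] [MulAction (FreeGroup α) X] [MulAction (FreeGroup β) Q]
    [MetricSpace M] {o : M}
    (hα : Fintype.card α = 2) (K R : ℕ) (hK : 1 ≤ K) (hKR : K ≤ R)
    (ι : X → M) (hι : Function.Injective ι)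
    (pX : X → Q) (hp1 : ∀ (a : α × Bool) z, sd β R (pX z) (pX (lt a • z)) ≤ 1)
    (hdist : ∀ z z', dist (ι z) (ι z') = ((max (sd α K z z') (sd β R (pX z) (pX z')) : ℕ) : ℝ))
    (hout : ∀ z m, m ∉ Set.range ι → (R : ℝ) ≤ dist (ι z) m)
    (ho : o ∉ Set.range ι)
    (j : V → X) (hj : ∀ (w : FreeGroup α) v, j (w • v) = w • j v)
    (Z : Set X) (hZ : ∀ (w : FreeGroup α), ∀ z ∈ Z, w • z ∈ Z)
    (bad : V → Prop)
    (D : V → X → α × Bool → ℝ) (hD1 : ∀ x z a, |D x z a| ≤ 1)
    (hD2 : ∀ x, ∀ z ∈ Z, InR (β := β) R (pX (j x)) (pX z) →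
      ∑ a, D x z a = 2 * Fintype.card α - 2)
    (hD3 : ∀ x, ∀ z ∈ Z, ∀ a b : α × Bool, InR (β := β) R (pX (j x)) (pX z) →
      InR (β := β) R (pX (j x)) (pX (lt b • z)) → D x (lt b • z) a = D x z a)
    (hD4 : ∀ x, ∀ z ∈ Z, ∀ a : α × Bool, InR (β := β) R (pX (j x)) (pX z) →
      InR (β := β) R (pX (j (lt a • x))) (pX z) →
      ¬ bad x → ¬ bad (lt a • x) → D (lt a • x) z (ng a) = - D x z a)
    (p : V → X) (hp : ∀ v, pX (p v) = pX (j v)) (hpZ : ∀ v, p v ∈ Z)
    (lam ε η : ℝ) (hlam : 0 ≤ lam) (hε : 0 ≤ ε)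
    (L : M → Lip0 M o →ₗ[ℝ] ℝ)
    (hL1 : ∀ m m' f, |L m f - L m' f| ≤ lam * ‖f‖ * dist m m')
    (hL2 : ∀ v f, |L (ι (p v)) f - f (ι (p v))| ≤ ε * ‖f‖)
    (hL3 : ∀ v, ∀ f : Lip0 M o, (∀ z ∈ Z, f (ι z) = 0) → (∀ m, m ∉ Set.range ι → f m = 0) →
      ‖f‖ ≤ 1 → |L (ι (j v)) f| ≤ η) :
    4 * (Fintype.card V : ℝ) * (1 - (lam * K + ε) / R - η) ≤
      4 * (Fintype.card V : ℝ) * (2 * lam / K + 1 / R + 2 / R * (lam * K + ε)) +
        8 * (Nat.card {v // bad v} : ℝ) * (2 * (1 + 2 / K * (lam * K + ε))) := by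
  classical
  have hKpos : (0 : ℝ) < K := by exact_mod_cast (show 0 < K by omega)
  have hRpos : (0 : ℝ) < R := by exact_mod_cast (show 0 < R by omega)
  have hKR' : (K : ℝ) ≤ R := by exact_mod_cast hKR
  have hR1 : (1 : ℝ) ≤ R := by exact_mod_cast (show 1 ≤ R by omega)
  have hK1 : (1 : ℝ) ≤ K := by exact_mod_cast hK
  -- distance facts
  have hdα : ∀ z z', (sd α K z z' : ℝ) ≤ dist (ι z) (ι z') := by
    intro z z'
    rw [hdist]
    exact_mod_cast le_max_left _ _
  have hdβ : ∀ z z', (sd β R (pX z) (pX z') : ℝ) ≤ dist (ι z) (ι z') := by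
    intro z z'
    rw [hdist]
    exact_mod_cast le_max_right _ _
  have hsepX : ∀ z z', z ≠ z' → 1 ≤ dist (ι z) (ι z') := by
    intro z z' hzz
    refine le_trans ?_ (hdα z z')
    have : sd α K z z' ≠ 0 := fun h => hzz ((sd_eq_zero (by omega)).1 h)
    exact_mod_cast Nat.one_le_iff_ne_zero.2 this
  -- the cut-off
  set chi : V → X → ℝ := fun x z => 1 - (sd β R (pX (j x)) (pX z) : ℝ) / R with hchi
  have hsdR : ∀ u v : Q, (sd β R u v : ℝ) ≤ R := fun u v => by exact_mod_cast sd_le
  have hchi0 : ∀ x z, 0 ≤ chi x z := by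
    intro x z
    have h := div_le_one_of_le₀ (hsdR (pX (j x)) (pX z)) hRpos.le
    simp only [hchi]
    linarith only [h]
  have hchi1 : ∀ x z, chi x z ≤ 1 := by
    intro x z
    have : (0 : ℝ) ≤ (sd β R (pX (j x)) (pX z) : ℝ) / R := by (clear * - hRpos; positivity)
    simp only [hchi]
    linarith only [this]
  -- out of range
  have hchi_out : ∀ x z, ¬ InR (β := β) R (pX (j x)) (pX z) → chi x z = 0 := by
    intro x z h
    have h1 : ¬ sd β R (pX (j x)) (pX z) < R := fun h' => h (sd_lt_iff_InR.1 h')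
    have h2 : sd β R (pX (j x)) (pX z) = R := le_antisymm sd_le (not_lt.1 h1)
    simp only [hchi, h2]
    rw [div_self hRpos.ne', sub_self]
  have hsdβ : ∀ u v w : Q, |(sd β R u v : ℝ) - sd β R u w| ≤ sd β R v w := by
    intro u v w
    rw [abs_le]
    constructor
    · have h1 : sd β R u w ≤ sd β R u v + sd β R v w := sd_triangle u v w
      have h2 : (sd β R u w : ℝ) ≤ sd β R u v + sd β R v w := by exact_mod_cast h1
      linarith only [h2]
    · have h1 : sd β R u v ≤ sd β R u w + sd β R w v := sd_triangle u w v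
      rw [sd_comm w v] at h1
      have h2 : (sd β R u v : ℝ) ≤ sd β R u w + sd β R v w := by exact_mod_cast h1
      linarith only [h2]
  have hchi_diff : ∀ x z z', |chi x z - chi x z'| ≤ (sd β R (pX z) (pX z') : ℝ) / R := by
    intro x z z'
    have h1 : chi x z - chi x z'
        = -((sd β R (pX (j x)) (pX z) : ℝ) - sd β R (pX (j x)) (pX z')) / R := by
      simp only [hchi]; ring
    rw [h1, abs_div, abs_neg, abs_of_pos hRpos]
    exact div_le_div_of_nonneg_right (hsdβ _ _ _) hRpos.le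
  have hchi_letter : ∀ x z (b : α × Bool), |chi x (lt b • z) - chi x z| ≤ 1 / R := by
    intro x z b
    refine (hchi_diff x (lt b • z) z).trans ?_
    refine div_le_div_of_nonneg_right ?_ hRpos.le
    rw [sd_comm]
    exact_mod_cast hp1 b z
  have hchi_left : ∀ x z (b : α × Bool), |chi x z - chi (lt b • x) z| ≤ 1 / R := by
    intro x z b
    have h1 : chi x z - chi (lt b • x) z
        = -((sd β R (pX z) (pX (j x)) : ℝ) - sd β R (pX z) (pX (j (lt b • x)))) / R := by
      simp only [hchi]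
      rw [sd_comm (pX z) (pX (j x)), sd_comm (pX z)]
      ring
    rw [h1, abs_div, abs_neg, abs_of_pos hRpos]
    refine div_le_div_of_nonneg_right ((hsdβ _ _ _).trans ?_) hRpos.le
    rw [hj]
    exact_mod_cast hp1 b (j x)
  -- the test functions
  set θ : V → α × Bool → X → ℝ := fun x a z => if z ∈ Z then chi x z * D x z a else 0 with hθ
  have hZiff : ∀ (b : α × Bool) z, lt b • z ∈ Z ↔ z ∈ Z := by
    intro b z
    constructor
    · intro h
      have := hZ (lt b)⁻¹ _ h
      rwa [inv_smul_smul] at this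
    · exact hZ (lt b) z
  have hchiabs : ∀ x z, |chi x z| ≤ 1 := fun x z => by
    rw [abs_of_nonneg (hchi0 x z)]; exact hchi1 x z
  have hθabs : ∀ x a z, |θ x a z| ≤ chi x z := by
    intro x a z
    simp only [hθ]
    split_ifs with h
    · rw [abs_mul, abs_of_nonneg (hchi0 x z)]
      exact mul_le_of_le_one_right (hchi0 x z) (hD1 x z a)
    · rw [abs_zero]; exact hchi0 x z
  have hθ1 : ∀ x a z, |θ x a z| ≤ 1 := fun x a z => (hθabs x a z).trans (hchi1 x z)
  have hθ_letter : ∀ x a (b : α × Bool) z, |θ x a (lt b • z) - θ x a z| ≤ 1 / R := by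
    intro x a b z
    by_cases hz : z ∈ Z
    · have hz' : lt b • z ∈ Z := (hZiff b z).2 hz
      by_cases h1 : InR (β := β) R (pX (j x)) (pX z)
      · by_cases h2 : InR (β := β) R (pX (j x)) (pX (lt b • z))
        · have h3 := hD3 x z hz a b h1 h2
          simp only [hθ, if_pos hz, if_pos hz', h3]
          rw [← sub_mul, abs_mul]
          calc |chi x (lt b • z) - chi x z| * |D x z a| ≤ (1 / R) * 1 :=
                mul_le_mul (hchi_letter x z b) (hD1 x z a) (abs_nonneg _) (by (clear * - hRpos; positivity))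
            _ = 1 / R := mul_one _
        · have h3 := hchi_out x _ h2
          have h4 : θ x a (lt b • z) = 0 := by
            have := hθabs x a (lt b • z)
            rw [h3] at this
            exact abs_nonpos_iff.1 this
          have h5 := hchi_letter x z b
          rw [h3, zero_sub, abs_neg, abs_of_nonneg (hchi0 x z)] at h5
          rw [h4, zero_sub, abs_neg]
          exact (hθabs x a z).trans h5
      · have h3 := hchi_out x _ h1
        have h4 : θ x a z = 0 := by
          have := hθabs x a z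
          rw [h3] at this
          exact abs_nonpos_iff.1 this
        have h5 := hchi_letter x z b
        rw [h3, sub_zero, abs_of_nonneg (hchi0 x _)] at h5
        rw [h4, sub_zero]
        exact (hθabs x a _).trans h5
    · have hz' : lt b • z ∉ Z := fun h => hz ((hZiff b z).1 h)
      simp only [hθ, if_neg hz, if_neg hz', sub_zero, abs_zero]
      (clear * - hRpos; positivity)
  have hθX : ∀ x a z z', |θ x a z - θ x a z'| ≤ 2 / K * dist (ι z) (ι z') := by
    intro x a z z'
    by_cases h : sd α K z z' < K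
    · obtain ⟨w, hw1, hw2⟩ := sd_lt h
      have h1 := abs_smul_sub_le (θ x a) (1 / R) (fun b z => hθ_letter x a b z) w z
      rw [hw2, hw1] at h1
      rw [abs_sub_comm]
      have h2 := hdα z z'
      calc |θ x a z' - θ x a z| ≤ 1 / R * (sd α K z z' : ℝ) := h1
        _ ≤ 2 / K * dist (ι z) (ι z') := by
          refine mul_le_mul ?_ h2 (by (clear * -; positivity)) (by positivity)
          calc (1 : ℝ) / R ≤ 1 / K := one_div_le_one_div_of_le hKpos hKR'
            _ ≤ 2 / K := by gcongr; norm_num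
    · have h1 : sd α K z z' = K := le_antisymm sd_le (not_lt.1 h)
      have h2 := hdα z z'
      rw [h1] at h2
      calc |θ x a z - θ x a z'| ≤ |θ x a z| + |θ x a z'| := abs_sub _ _
        _ ≤ 2 := by linarith only [hθ1 x a z, hθ1 x a z']
        _ = 2 / K * K := by field_simp
        _ ≤ 2 / K * dist (ι z) (ι z') := by (clear * - h2 hK; gcongr)
  -- antisymmetry up to `1 / R`
  have hψ : ∀ x (a : α × Bool) z, ¬ bad x → ¬ bad (lt a • x) →
      |θ x a z + θ (lt a • x) (ng a) z| ≤ 1 / R := by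
    intro x a z hx hax
    by_cases hz : z ∈ Z
    · by_cases h1 : InR (β := β) R (pX (j x)) (pX z)
      · by_cases h2 : InR (β := β) R (pX (j (lt a • x))) (pX z)
        · have h3 := hD4 x z hz a h1 h2 hx hax
          simp only [hθ, if_pos hz, h3]
          have h4 : chi x z * D x z a + chi (lt a • x) z * -D x z a
              = (chi x z - chi (lt a • x) z) * D x z a := by ring
          rw [h4, abs_mul]
          calc |chi x z - chi (lt a • x) z| * |D x z a| ≤ (1 / R) * 1 :=
                mul_le_mul (hchi_left x z a) (hD1 x z a) (abs_nonneg _) (by (clear * - hRpos; positivity))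
            _ = 1 / R := mul_one _
        · have h3 := hchi_out (lt a • x) z h2
          have h4 : θ (lt a • x) (ng a) z = 0 := by
            have := hθabs (lt a • x) (ng a) z
            rw [h3] at this
            exact abs_nonpos_iff.1 this
          have h5 := hchi_left x z a
          rw [h3, sub_zero, abs_of_nonneg (hchi0 x z)] at h5
          rw [h4, add_zero]
          exact (hθabs x a z).trans h5
      · have h3 := hchi_out x z h1
        have h4 : θ x a z = 0 := by
          have := hθabs x a z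
          rw [h3] at this
          exact abs_nonpos_iff.1 this
        have h5 := hchi_left x z a
        rw [h3, zero_sub, abs_neg, abs_of_nonneg (hchi0 _ z)] at h5
        rw [h4, zero_add]
        exact (hθabs _ _ z).trans h5
    · simp only [hθ, if_neg hz, add_zero, abs_zero]
      (clear * - hRpos; positivity)
  have hext : ∀ x (a : α × Bool) m,
      Function.extend ι (θ x a) 0 m + Function.extend ι (θ (lt a • x) (ng a)) 0 m
        = Function.extend ι (fun z => θ x a z + θ (lt a • x) (ng a) z) 0 m := by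
    intro x a m
    by_cases hm : m ∈ Set.range ι
    · obtain ⟨z, rfl⟩ := hm
      rw [hι.extend_apply, hι.extend_apply, hι.extend_apply]
    · rw [Function.extend_apply' _ _ _ hm, Function.extend_apply' _ _ _ hm,
        Function.extend_apply' _ _ _ hm]
      simp
  have hcard4 : Fintype.card (α × Bool) = 4 := by
    rw [Fintype.card_prod, hα, Fintype.card_bool]
  have hmain := main_abs (S := α × Bool) L lam ε η hlam hε hL1 K R hKpos hRpos
    (fun a x => lt a • x) ng
    (fun a x => by
      rw [lt_ng, inv_smul_smul]) ng_ng hcard4 (fun x => ι (j x)) (fun x => ι (p x))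
    (fun x => by
      rw [hdist, hp, sd_self]
      exact_mod_cast max_le sd_le (Nat.zero_le _))
    (fun a x => by
      rw [hdist, hj]
      have h1 : sd α K (j x) (lt a • j x) ≤ 1 := (sd_smul_le (lt a) (j x)).trans (by simp)
      exact_mod_cast max_le h1 (hp1 a (j x)))
    hL2 (ι '' Z) (fun x => Function.extend ι (chi x) 0)
    (fun x => extend_lip ι hι (by (clear * - hRpos; positivity)) hout (chi x)
      (fun z z' => (hchi_diff x z z').trans (by
        rw [div_eq_mul_one_div, mul_comm]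
        exact mul_le_mul_of_nonneg_left (hdβ z z') (by (clear * - hRpos; positivity))))
      (fun z => (hchiabs x z).trans (by
        rw [one_div, inv_mul_cancel₀ hRpos.ne'])))
    (fun x => Function.extend_apply' _ _ _ ho)
    (fun x => by
      rw [hι.extend_apply]
      simp only [hchi]
      rw [hp, sd_self]
      simp)
    (fun x a => Function.extend ι (θ x a) 0)
    (fun x a m => by
      by_cases hm : m ∈ Set.range ι
      · obtain ⟨z, rfl⟩ := hm
        rw [hι.extend_apply]
        exact hθ1 x a z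
      · rw [Function.extend_apply' _ _ _ hm]
        simp)
    (fun x a => extend_lip ι hι (by positivity) hout (θ x a) (hθX x a)
      (fun z => (hθ1 x a z).trans (by
        calc (1 : ℝ) ≤ 2 := by norm_num
          _ = 2 / K * K := by field_simp
          _ ≤ 2 / K * R := by (clear * - hKR' hK; gcongr))))
    (fun x a => Function.extend_apply' _ _ _ ho)
    (fun x m => by
      by_cases hm : m ∈ Set.range ι
      · obtain ⟨z, rfl⟩ := hm
        simp only [hι.extend_apply, hι.mem_set_image]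
        by_cases hz : z ∈ Z
        · simp only [hθ, if_pos hz]
          rw [← mul_sum]
          by_cases h1 : InR (β := β) R (pX (j x)) (pX z)
          · rw [hD2 x z hz h1, hα]
            push_cast
            ring
          · rw [hchi_out x z h1]
            ring
        · simp only [hθ, if_neg hz]
          simp only [sum_const_zero, mul_zero]
      · have hm' : m ∉ ι '' Z := fun h => hm (Set.image_subset_range _ _ h)
        rw [if_neg hm']
        rw [mul_zero]
        refine sum_eq_zero fun a _ => ?_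
        exact Function.extend_apply' _ _ _ hm)
    bad ?_ ?_ ?_
  · have hc : ((univ.filter bad).card : ℝ) = (Nat.card {v // bad v} : ℝ) := by
      rw [Nat.card_eq_fintype_card, Fintype.card_subtype]
    rw [hc] at hmain
    exact hmain
  · intro x a m hx hax
    rw [hext]
    by_cases hm : m ∈ Set.range ι
    · obtain ⟨z, rfl⟩ := hm
      rw [hι.extend_apply]
      exact hψ x a z hx hax
    · rw [Function.extend_apply' _ _ _ hm]
      simp only [Pi.zero_apply, abs_zero]
      (clear * - hRpos; positivity)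
  · intro x a m m' hx hax
    rw [hext, hext]
    refine extend_lip ι hι (by (clear * - hRpos; positivity)) hout _ (fun z z' => ?_) (fun z => ?_) m m'
    · rcases eq_or_ne z z' with rfl | hzz
      · simp
      · have h1 := hψ x a z hx hax
        have h2 := hψ x a z' hx hax
        calc |(θ x a z + θ (lt a • x) (ng a) z) - (θ x a z' + θ (lt a • x) (ng a) z')|
            ≤ |θ x a z + θ (lt a • x) (ng a) z| + |θ x a z' + θ (lt a • x) (ng a) z'| :=
              abs_sub _ _
          _ ≤ 1 / R + 1 / R := add_le_add h1 h2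
          _ = 2 / R * 1 := by ring
          _ ≤ 2 / R * dist (ι z) (ι z') := by
              gcongr
              exact hsepX z z' hzz
    · refine (hψ x a z hx hax).trans ?_
      rw [div_mul_cancel₀ _ hRpos.ne']
      calc (1 : ℝ) / R ≤ 1 / 1 := one_div_le_one_div_of_le one_pos hR1
        _ ≤ 2 := by norm_num
  · intro x f hf
    have hfX : ∀ z, f (ι z) = if z ∈ Z then 0 else chi x z := by
      intro z
      rw [hf, hι.extend_apply]
      simp only [hι.mem_set_image]
    have hfout : ∀ m, m ∉ Set.range ι → f m = 0 := by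
      intro m hm
      rw [hf, Function.extend_apply' _ _ _ hm]
      simp only [Set.mem_image, Pi.zero_apply, ite_self]
    refine hL3 x f (fun z hz => by rw [hfX, if_pos hz]) hfout ?_
    have hf01 : ∀ z, 0 ≤ f (ι z) ∧ f (ι z) ≤ 1 := by
      intro z
      rw [hfX]
      split_ifs
      · exact ⟨le_rfl, zero_le_one⟩
      · exact ⟨hchi0 x z, hchi1 x z⟩
    have hfe : ∀ m, f m = Function.extend ι (fun z => f (ι z)) 0 m := by
      intro m
      by_cases hm : m ∈ Set.range ι
      · obtain ⟨z, rfl⟩ := hm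
        rw [hι.extend_apply]
      · rw [Function.extend_apply' _ _ _ hm, hfout m hm]
        rfl
    refine Lip0.norm_le zero_le_one fun m m' => ?_
    rw [hfe m, hfe m']
    refine extend_lip ι hι zero_le_one hout _ (fun z z' => ?_) (fun z => ?_) m m'
    · rcases eq_or_ne z z' with rfl | hzz
      · simp
      · have h1 := hf01 z
        have h2 := hf01 z'
        have h3 := hsepX z z' hzz
        rw [one_mul]
        refine le_trans (abs_le.2 ⟨?_, ?_⟩) h3 <;> linarith only [h1, h2]
    · have h1 := hf01 z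
      rw [abs_of_nonneg h1.1, one_mul]
      exact h1.2.trans hR1

end

end Vale.Agent.P090
end
end

section

section

/-! Assembly: the counterexample has no bounded approximation property. -/

namespace Vale.Agent.P090

/-- The part of block `k` below level `N` (including the anchors). -/
def ZZ (k N : ℕ) : Set (XX k) := {z | (∃ u, z = anc k u) ∨ ∃ n, n < N ∧ ∃ x, z = ver k n x}

theorem ZZ_smul (k N : ℕ) (w : FreeGroup AA) (z : XX k) (hz : z ∈ ZZ k N) : w • z ∈ ZZ k N := by
  rcases hz with ⟨u, rfl⟩ | ⟨n, hn, x, rfl⟩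
  · exact Or.inl ⟨u, smul_anc k w u⟩
  · exact Or.inr ⟨n, hn, w • x, smul_ver k w n x⟩

/-- The matching length attached to a point. -/
noncomputable def Sz (k : ℕ) : XX k → ℕ
  | Sum.inl _ => 0
  | Sum.inr p => SS k p.1

theorem Sz_anc (k : ℕ) (u : Qt k) : Sz k (anc k u) = 0 := rfl

theorem Sz_ver (k n : ℕ) (x : VN k n) : Sz k (ver k n x) = SS k n := rfl

theorem Sz_smul (k : ℕ) (w : FreeGroup AA) (z : XX k) : Sz k (w • z) = Sz k z := by
  rcases XX_cases k z with ⟨u, rfl⟩ | ⟨N, x, rfl⟩
  · rfl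
  · rfl

/-- The bad vertices at level `N`. -/
def Bad (k N : ℕ) (x : VN k N) : Prop :=
  ∃ n, n < N ∧ ∃ z : VN k n, ∃ w : FreeGroup AA, w.norm = SS k n ∧
    coc (PN k N) (QQ k) w x = coc (PN k n) (QQ k) w z

theorem two_pow_ge (n : ℕ) : n ≤ 2 ^ n := Nat.lt_two_pow_self.le

/-- Vertices matched with level `n`. -/
def Mat (k N n : ℕ) (x : VN k N) : Prop :=
  ∃ z : VN k n, ∃ w : FreeGroup AA, w.norm = SS k n ∧
    coc (PN k N) (QQ k) w x = coc (PN k n) (QQ k) w z

theorem card_Mat_le (k N n : ℕ) (h : n < N) :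
    (Nat.card {x : VN k N // Mat k N n x} : ℝ) ≤
      Fintype.card (VN k N) * (1 / 2 ^ (n + 1) * (1 / 2 ^ k)) := by
  have h1 := card_match (P := PN k N) (P1 := PN k n) (P' := QQ k) (SS k n)
    (fun w hw hn => gg_spec AA (gs k N) w hw (hn.trans (by have := gs_ge_SS k h; omega)))
  have hmm : Fintype.card (PN k n).G * 8 ^ Fintype.card (PN k n).G = mm (gs k n) := rfl
  rw [hmm] at h1
  have h2 : mm (gs k n) ≤ 2 ^ mm (gs k n) := two_pow_ge _
  have h3 : (Nat.card {x : VN k N // Mat k N n x}) * (8 : ℕ) ^ (SS k n + 1) ≤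
      2 ^ mm (gs k n) * 4 ^ (SS k n) * Fintype.card (VN k N) :=
    h1.trans (Nat.mul_le_mul_right _ (Nat.mul_le_mul_right _ h2))
  have h4 : (Nat.card {x : VN k N // Mat k N n x} : ℝ) * (8 : ℝ) ^ (SS k n + 1) ≤
      2 ^ mm (gs k n) * 4 ^ (SS k n) * Fintype.card (VN k N) := by exact_mod_cast h3
  have h5 : (8 : ℝ) ^ (SS k n + 1) = 2 ^ mm (gs k n) * 4 ^ (SS k n) * (8 * 2 ^ (n + k + 4)) := by
    have : (8 : ℝ) ^ (SS k n) = 2 ^ (SS k n) * 4 ^ (SS k n) := by
      rw [← mul_pow]; norm_num
    rw [pow_succ, this]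
    have : (2 : ℝ) ^ (SS k n) = 2 ^ mm (gs k n) * 2 ^ (n + k + 4) := by
      rw [← pow_add]
      congr 1
      unfold SS
      ring
    rw [this]
    ring
  rw [h5] at h4
  have hpos : (0 : ℝ) < 2 ^ mm (gs k n) * 4 ^ (SS k n) := by positivity
  have h6 : (Nat.card {x : VN k N // Mat k N n x} : ℝ) * (8 * 2 ^ (n + k + 4)) ≤
      Fintype.card (VN k N) := by
    have : 2 ^ mm (gs k n) * 4 ^ (SS k n) *
        ((Nat.card {x : VN k N // Mat k N n x} : ℝ) * (8 * 2 ^ (n + k + 4))) ≤
        2 ^ mm (gs k n) * 4 ^ (SS k n) * Fintype.card (VN k N) := by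
      calc _ = (Nat.card {x : VN k N // Mat k N n x} : ℝ) *
            (2 ^ mm (gs k n) * 4 ^ (SS k n) * (8 * 2 ^ (n + k + 4))) := by ring
        _ ≤ _ := h4
    exact le_of_mul_le_mul_left this hpos
  have h7 : (2 : ℝ) ^ (n + 1) * 2 ^ k ≤ 8 * 2 ^ (n + k + 4) := by
    have : (2 : ℝ) ^ (n + k + 4) = 2 ^ (n + 1) * 2 ^ k * 8 := by ring
    rw [this]
    have : (0 : ℝ) < 2 ^ (n + 1) * 2 ^ k := by positivity
    nlinarith only [this]
  have h8 : (Fintype.card (VN k N) : ℝ) * (1 / 2 ^ (n + 1) * (1 / 2 ^ k)) =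
      Fintype.card (VN k N) / (2 ^ (n + 1) * 2 ^ k) := by
    field_simp
  rw [h8, le_div_iff₀ (by positivity)]
  refine le_trans ?_ h6
  exact mul_le_mul_of_nonneg_left h7 (Nat.cast_nonneg _)

theorem geom_le (N : ℕ) : ∑ n ∈ Finset.range N, (1 / 2 ^ (n + 1) : ℝ) ≤ 1 := by
  have : ∀ N : ℕ, ∑ n ∈ Finset.range N, (1 / 2 ^ (n + 1) : ℝ) = 1 - 1 / 2 ^ N := by
    intro N
    induction N with
    | zero => simp only [Finset.range_zero, one_div, Finset.sum_empty, pow_zero, ne_eq, one_ne_zero, not_false_eq_true, div_self, sub_self]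
    | succ N ih =>
      rw [Finset.sum_range_succ, ih, pow_succ]
      field_simp
      ring
  rw [this]
  have : (0 : ℝ) ≤ 1 / 2 ^ N := by positivity
  linarith only [this]

theorem card_Bad_le (k N : ℕ) :
    (Nat.card {x : VN k N // Bad k N x} : ℝ) ≤ Fintype.card (VN k N) / 2 ^ k := by
  have h1 : Nat.card {x : VN k N // Bad k N x} ≤
      Nat.card (Σ n : Fin N, {x : VN k N // Mat k N n x}) := by
    refine Nat.card_le_card_of_injective
      (fun x => ⟨⟨x.2.choose, x.2.choose_spec.1⟩, ⟨x.1, x.2.choose_spec.2⟩⟩) ?_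
    intro x y hxy
    have h2 := congrArg (fun p : (Σ n : Fin N, {x : VN k N // Mat k N n x}) => p.2.1) hxy
    exact Subtype.ext h2
  rw [Nat.card_sigma] at h1
  calc (Nat.card {x : VN k N // Bad k N x} : ℝ)
      ≤ ((∑ n : Fin N, Nat.card {x : VN k N // Mat k N n x} : ℕ) : ℝ) := by exact_mod_cast h1
    _ = ∑ n : Fin N, (Nat.card {x : VN k N // Mat k N n x} : ℝ) := by push_cast; rfl
    _ ≤ ∑ n : Fin N, (Fintype.card (VN k N) * (1 / 2 ^ ((n : ℕ) + 1) * (1 / 2 ^ k)) : ℝ) :=
        Finset.sum_le_sum fun n _ => card_Mat_le k N n n.2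
    _ = ∑ n ∈ Finset.range N, (Fintype.card (VN k N) * (1 / 2 ^ (n + 1) * (1 / 2 ^ k)) : ℝ) :=
        Fin.sum_univ_eq_sum_range
          (fun n => (Fintype.card (VN k N) * (1 / 2 ^ (n + 1) * (1 / 2 ^ k)) : ℝ)) N
    _ = (Fintype.card (VN k N) : ℝ) / 2 ^ k *
          ∑ n ∈ Finset.range N, (1 / 2 ^ (n + 1) : ℝ) := by
        rw [Finset.mul_sum]
        refine Finset.sum_congr rfl fun n _ => ?_
        field_simp
    _ ≤ (Fintype.card (VN k N) : ℝ) / 2 ^ k * 1 :=
        mul_le_mul_of_nonneg_left (geom_le N) (by positivity)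
    _ = _ := mul_one _

/-- The glued space of the blocks with indices `j i`. -/
abbrev MG (j : ℕ → ℕ) : Type := Glue fun i => blk (j i)

/-- The level of a point. -/
def lev (j : ℕ → ℕ) : MG j → ℕ
  | none => 0
  | some ⟨_, Sum.inl _⟩ => 0
  | some ⟨_, Sum.inr p⟩ => p.1

theorem lev_ver (j : ℕ → ℕ) (i n : ℕ) (x : VN (j i) n) :
    lev j (Glue.inc (fun i => blk (j i)) i (ver (j i) n x)) = n := rfl

theorem numeric {n b lam : ℝ} {k : ℕ} (hn : 0 < n) (hlam : 1 ≤ lam)
    (hk : 52 * lam + 64 ≤ (k : ℝ) + 1) (hb : b ≤ n / 2 ^ k)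
    (h : 4 * n * (1 - (lam * ((k + 1 : ℕ) : ℝ) + 1) / ((RR k : ℕ) : ℝ) - 1 / 4) ≤
      4 * n * (2 * lam / ((k + 1 : ℕ) : ℝ) + 1 / ((RR k : ℕ) : ℝ) +
        2 / ((RR k : ℕ) : ℝ) * (lam * ((k + 1 : ℕ) : ℝ) + 1)) +
      8 * b * (2 * (1 + 2 / ((k + 1 : ℕ) : ℝ) * (lam * ((k + 1 : ℕ) : ℝ) + 1)))) : False := by
  set K : ℝ := ((k + 1 : ℕ) : ℝ) with hK
  have hKk : K = (k : ℝ) + 1 := by rw [hK]; push_cast; rfl
  have hR : ((RR k : ℕ) : ℝ) = K ^ 2 := by
    rw [hKk]; unfold RR; push_cast; ring
  rw [hR] at h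
  have hK1 : 1 ≤ K := by rw [hKk]; linarith only []
  have hK0 : 0 < K := by linarith only [hKk]
  have h2k : K ≤ 2 ^ k := by
    have := Nat.lt_two_pow_self (n := k)
    have h3 : k + 1 ≤ 2 ^ k := this
    rw [hK]; exact_mod_cast h3
  have hb' : b ≤ n / K := hb.trans (by (clear * - hn h2k; gcongr))
  have e1 : (lam * K + 1) / K ^ 2 ≤ (lam + 1) / K := by
    rw [div_le_div_iff₀ (by positivity) hK0]
    nlinarith only [hKk]
  have e2 : (1 : ℝ) / K ^ 2 ≤ 1 / K := by
    rw [div_le_div_iff₀ (by positivity) hK0]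
    nlinarith only [hKk]
  have e3 : 2 / K ^ 2 * (lam * K + 1) ≤ (2 * lam + 2) / K := by
    rw [div_mul_eq_mul_div, div_le_div_iff₀ (by positivity) hK0]
    nlinarith only [hKk]
  have e4 : 2 / K * (lam * K + 1) ≤ 2 * lam + 2 := by
    rw [div_mul_eq_mul_div, div_le_iff₀ hK0]
    nlinarith only [hKk]
  have hbnd : 8 * b * (2 * (1 + 2 / K * (lam * K + 1))) ≤ 8 * (n / K) * (2 * (2 * lam + 3)) := by
    have h0 : 0 ≤ 2 * (1 + 2 / K * (lam * K + 1)) := by positivity
    have h1 : 2 * (1 + 2 / K * (lam * K + 1)) ≤ 2 * (2 * lam + 3) := by linarith only [e4]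
    have h2 : 0 ≤ 8 * (n / K) := by positivity
    calc 8 * b * (2 * (1 + 2 / K * (lam * K + 1)))
        ≤ 8 * (n / K) * (2 * (1 + 2 / K * (lam * K + 1))) := by
          apply mul_le_mul_of_nonneg_right _ h0
          linarith only [hb']
      _ ≤ _ := mul_le_mul_of_nonneg_left h1 h2
  have hl : 4 * n * (3 / 4 - (lam + 1) / K) ≤
      4 * n * (1 - (lam * K + 1) / K ^ 2 - 1 / 4) := by
    apply mul_le_mul_of_nonneg_left _ (by positivity)
    linarith only [e1]
  have hr : 4 * n * (2 * lam / K + 1 / K ^ 2 + 2 / K ^ 2 * (lam * K + 1)) ≤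
      4 * n * (2 * lam / K + 1 / K + (2 * lam + 2) / K) := by
    apply mul_le_mul_of_nonneg_left _ (by positivity)
    linarith only [e2, e3]
  have hfin : 4 * n * (3 / 4 - (lam + 1) / K) ≤
      4 * n * (2 * lam / K + 1 / K + (2 * lam + 2) / K) + 8 * (n / K) * (2 * (2 * lam + 3)) := by
    linarith only [h, hbnd, hl, hr]
  have h3 : 3 * n * K ≤ (52 * lam + 64) * n := by
    have h4 : 4 * n * (3 / 4 - (lam + 1) / K) * K ≤
        (4 * n * (2 * lam / K + 1 / K + (2 * lam + 2) / K) + 8 * (n / K) * (2 * (2 * lam + 3))) * K :=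
      mul_le_mul_of_nonneg_right hfin hK0.le
    have h5 : 4 * n * (3 / 4 - (lam + 1) / K) * K = 3 * n * K - 4 * n * (lam + 1) := by
      (clear * - hK1 hn; field_simp)
    have h6 : (4 * n * (2 * lam / K + 1 / K + (2 * lam + 2) / K) +
        8 * (n / K) * (2 * (2 * lam + 3))) * K =
        4 * n * (4 * lam + 3) + 16 * n * (2 * lam + 3) := by
      field_simp
      ring
    rw [h5, h6] at h4
    nlinarith only [h4]
  have h7 : (52 * lam + 64) * n ≤ K * n := by
    apply mul_le_mul_of_nonneg_right _ hn.le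
    rw [hKk]; exact hk
  nlinarith only [hn, h3, h7, hlam]

/-- A glued space containing a block with large index fails the `lam`-bounded approximation
property. -/
theorem no_bapWith (j : ℕ → ℕ) (i : ℕ) (lam : ℝ) (hlam : 1 ≤ lam)
    (hk0 : 52 * lam + 64 ≤ (j i : ℝ) + 1)
    (h : HasBAPWith lam (LipFree (MG j) (Glue.base fun i => blk (j i)))) : False := by
  classical
  set k : ℕ := j i with hkdef
  have hk : 52 * lam + 64 ≤ (k : ℝ) + 1 := hk0
  let B : ℕ → Blk := fun i => blk (j i)
  let ι : XX k → MG j := Glue.inc B i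
  obtain ⟨L, hL1, hL2, hL3⟩ := fa_main (hasBAPWith_lipFree_iff.1 h)
    (Finset.univ.image (fun u : Qt k => ι (anc k u))) one_pos
  obtain ⟨M0, hM0⟩ := hL3 (RR k : ℝ) (1 / 4) (by norm_num)
  let N : ℕ := M0.sup (lev j) + 1
  have hN : ∀ n (x : VN k n), ι (ver k n x) ∈ M0 → n < N := by
    intro n x hx
    have h1 : lev j (ι (ver k n x)) ≤ M0.sup (lev j) := Finset.le_sup hx
    have h2 : lev j (ι (ver k n x)) = n := lev_ver j i n x
    omega
  have hZ4 : 4 * (2 * RR k + (gs k N - 4 - 8 * RR k) / 4) + 4 ≤ gs k N := by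
    have := gs_ge k N
    omega
  obtain ⟨D, hD1, hD2, hD3, hD4⟩ := lemmaD (α := AA) (β := BB) (V := VN k N) (X := XX k)
    (Q := Qt k) Prod.fst (fun w x => coc (PN k N) (QQ k) w x) (cX k)
    (fun x => (x.2.2 : Qt k)) (pX k) (RR k) ((gs k N - 4 - 8 * RR k) / 4)
    (fun w w' x => coc_mul w w' x) (fun w x => map_coc w x) (fun w x => norm_coc w x)
    (fun w x => third_smul w x) (cX_mul k) (pX_smul k) (ZZ k N) (ZZ_smul k N) (Sz k)
    (Sz_smul k)
    (by
      rintro z (⟨u, rfl⟩ | ⟨n, hn, x, rfl⟩)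
      · rw [Sz_anc]; omega
      · rw [Sz_ver]
        have := gs_ge_SS k hn
        omega)
    (Bad k N)
    (by
      rintro z (⟨u, rfl⟩ | ⟨n, hn, x, rfl⟩)
      · left
        intro w
        exact ⟨smul_anc k w u, cX_anc k w u⟩
      · right
        refine ⟨fun w => ⟨map_coc w x, norm_coc w x⟩, fun y w hw hc => ?_⟩
        exact ⟨n, hn, x, w, hw, hc⟩)
    (by
      intro σ hσ hσR u hu
      rw [Qt_smul] at hu
      have h1 : homQ k σ = 1 := by simpa using hu
      exact gg_spec BB (2 * RR k) σ hσ hσR h1)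
    (by
      intro w hw hwn x
      exact smul_ne_of_girth (gg_spec AA (gs k N)) w hw (hwn.trans hZ4) x)
  have key := block_ineq (α := AA) (β := BB) (V := VN k N) (X := XX k) (Q := Qt k) (M := MG j)
    (o := Glue.base B) (by simp) (k + 1) (RR k) (by omega) (le_RR k) ι
    (Glue.inc_injective B i) (pX k)
    (by
      intro a z
      rw [pX_smul]
      exact (sd_smul_le _ _).trans ((norm_cX_le k _ _).trans (by simp)))
    (fun z z' => Glue.dist_inc B i z z')
    (fun z m hm => Glue.le_dist_out B i z m hm)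
    (Glue.base_not_mem B i)
    (ver k N) (fun w v => (smul_ver k w N v).symm) (ZZ k N) (ZZ_smul k N) (Bad k N) D hD1 hD2
    hD3 hD4 (fun v => anc k (v.2.2 : Qt k)) (fun v => rfl) (fun v => Or.inl ⟨_, rfl⟩)
    lam 1 (1 / 4) (by linarith only [hlam]) (by norm_num) L hL1
    (by
      intro v f
      exact hL2 _ (Finset.mem_image_of_mem _ (Finset.mem_univ _)) f)
    (by
      intro v f hf1 hf2 hf3
      have h1 := hM0 (ι (ver k N v)) (le_of_eq (Glue.dist_inc_base B i _)) f
        (by
          intro x hx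
          by_cases hxr : x ∈ Set.range ι
          · obtain ⟨z, rfl⟩ := hxr
            apply hf1
            rcases XX_cases k z with ⟨u, rfl⟩ | ⟨n, y, rfl⟩
            · exact Or.inl ⟨u, rfl⟩
            · exact Or.inr ⟨n, hN n y hx, y, rfl⟩
          · exact hf2 x hxr)
      refine h1.trans ?_
      nlinarith only [hf3])
  have hcard : (0 : ℝ) < Fintype.card (VN k N) := by
    have : Nonempty (VN k N) := ⟨(1, fun _ => 0, 1)⟩
    exact_mod_cast Fintype.card_pos
  exact numeric hcard hlam hk (card_Bad_le k N) key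

/-- The counterexample fails the `lam`-bounded approximation property for every `lam`. -/
theorem no_bap (lam : ℝ) (hlam : 1 ≤ lam)
    (h : HasBAPWith lam (LipFree MM (Glue.base blk))) : False := by
  obtain ⟨k, hk⟩ := exists_nat_ge (52 * lam + 64)
  exact no_bapWith id k lam hlam (by simpa only [id_eq] using hk.trans (by linarith)) h

theorem HasBAPWith.mono {lam mu : ℝ} {X : Type} [NormedAddCommGroup X] [NormedSpace ℝ X]
    (h : HasBAPWith lam X) (hle : lam ≤ mu) : HasBAPWith mu X := by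
  intro K hK ε hε
  obtain ⟨T, h1, h2, h3⟩ := h K hK ε hε
  exact ⟨T, h1, h2.trans hle, h3⟩

theorem gd_le_of_const (b : Blk) (p q : Glue fun _ => b) : gd (fun _ => b) p q ≤ b.R := by
  rcases p with _ | ⟨k, x⟩ <;> rcases q with _ | ⟨l, y⟩
  · rw [gd_none_none]; exact Nat.zero_le _
  · rw [gd_none_some]
  · rw [gd_some_none]
  · by_cases h : k = l
    · subst h; rw [gd_same]; exact b.d_le _ _
    · rw [gd_ne _ h]; simp

/-- Bounded counterexamples for a given `lam`. -/
theorem exists_bounded (lam : ℝ) : ∃ j : ℕ → ℕ,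
    (∃ D : ℝ, ∀ p q : MG j, dist p q ≤ D) ∧
    ¬ HasBAPWith lam (LipFree (MG j) (Glue.base fun i => blk (j i))) := by
  obtain ⟨k, hk⟩ := exists_nat_ge (52 * max lam 1 + 64)
  refine ⟨fun _ => k, ⟨(RR k : ℝ), fun p q => ?_⟩, fun h => ?_⟩
  · rw [glue_dist]
    have : gd (fun _ => blk k) p q ≤ RR k := gd_le_of_const (blk k) p q
    exact_mod_cast this
  · exact no_bapWith (fun _ => k) 0 (max lam 1) (le_max_right _ _)
      (hk.trans (by linarith only [])) (h.mono (le_max_left _ _))

end Vale.Agent.P090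
end
end

section

section

/-! The Lipschitz-free space does not depend on the base point; the bounded approximation property
is invariant under linear isometries. -/

namespace Vale.Agent.P090

open scoped NNReal

set_option maxSynthPendingDepth 3

section Transfer

variable {X Y : Type} [NormedAddCommGroup X] [NormedSpace ℝ X] [NormedAddCommGroup Y]
  [NormedSpace ℝ Y]

theorem HasBAPWith.of_isometry {lam : ℝ} (e : X ≃ₗᵢ[ℝ] Y) (h : HasBAPWith lam X) :
    HasBAPWith lam Y := by
  intro C hC ε hε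
  obtain ⟨T, hT1, hT2, hT3⟩ := h (e.symm '' C) (hC.image e.symm.continuous) ε hε
  let T' : Y →L[ℝ] Y :=
    (e.toContinuousLinearEquiv : X →L[ℝ] Y).comp
      (T.comp (e.symm.toContinuousLinearEquiv : Y →L[ℝ] X))
  have hT' : ∀ y, T' y = e (T (e.symm y)) := fun y => rfl
  refine ⟨T', ?_, ?_, ?_⟩
  · have hle : LinearMap.range (T' : Y →ₗ[ℝ] Y) ≤
        (LinearMap.range (T : X →ₗ[ℝ] X)).map (e.toLinearEquiv : X →ₗ[ℝ] Y) := by
      rintro y ⟨z, rfl⟩
      exact ⟨T (e.symm z), ⟨e.symm z, rfl⟩, rfl⟩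
    have : FiniteDimensional ℝ
        ((LinearMap.range (T : X →ₗ[ℝ] X)).map (e.toLinearEquiv : X →ₗ[ℝ] Y)) :=
      Module.Finite.map _ _
    exact Submodule.finiteDimensional_of_le hle
  · have h0 : 0 ≤ lam := (norm_nonneg T).trans hT2
    refine ContinuousLinearMap.opNorm_le_bound _ h0 fun y => ?_
    rw [hT', LinearIsometryEquiv.norm_map]
    calc ‖T (e.symm y)‖ ≤ ‖T‖ * ‖e.symm y‖ := T.le_opNorm _
      _ ≤ lam * ‖y‖ := by rw [LinearIsometryEquiv.norm_map]; (clear * - hT2; gcongr)
  · intro u hu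
    have := hT3 (e.symm u) ⟨u, hu, rfl⟩
    rw [hT']
    have h2 : e (T (e.symm u)) - u = e (T (e.symm u) - e.symm u) := by
      rw [map_sub]; simp
    rw [h2, LinearIsometryEquiv.norm_map]
    exact this

theorem HasBAP.of_isometry (e : X ≃ₗᵢ[ℝ] Y) (h : HasBAP X) : HasBAP Y := by
  obtain ⟨lam, h1, h2⟩ := h
  exact ⟨lam, h1, h2.of_isometry e⟩

end Transfer

section Base

variable {M : Type} [MetricSpace M] (o o' : M)

/-- Changing the base point of Lipschitz functions. -/
noncomputable def shiftLip : Lip0 M o ≃ₗᵢ[ℝ] Lip0 M o' where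
  toFun f := ⟨fun x => f x - f o', by simp, by
    obtain ⟨C, hC⟩ := f.2.2
    refine ⟨C, LipschitzWith.of_dist_le_mul fun x y => ?_⟩
    have := hC.dist_le_mul x y
    rw [Real.dist_eq] at this ⊢
    simpa using this⟩
  invFun f := ⟨fun x => f x - f o, by simp, by
    obtain ⟨C, hC⟩ := f.2.2
    refine ⟨C, LipschitzWith.of_dist_le_mul fun x y => ?_⟩
    have := hC.dist_le_mul x y
    rw [Real.dist_eq] at this ⊢
    simpa using this⟩
  map_add' f g := by
    apply Lip0.ext; intro x
    show (f + g) x - (f + g) o' = (f x - f o') + (g x - g o')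
    simp; ring
  map_smul' c f := by
    apply Lip0.ext; intro x
    show (c • f) x - (c • f) o' = c * (f x - f o')
    simp; ring
  left_inv f := by
    apply Lip0.ext; intro x
    show (f x - f o') - (f o - f o') = f x
    simp
  right_inv f := by
    apply Lip0.ext; intro x
    show (f x - f o) - (f o' - f o) = f x
    simp
  norm_map' f := by
    rw [Lip0.norm_def, Lip0.norm_def]
    congr 1
    ext C
    apply and_congr Iff.rfl
    apply forall_congr'; intro x; apply forall_congr'; intro y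
    show |(f x - f o') - (f y - f o')| ≤ _ ↔ _
    rw [sub_sub_sub_cancel_right]

theorem shiftLip_apply (f : Lip0 M o) (x : M) : shiftLip o o' f x = f x - f o' := rfl

theorem shiftLip_symm_apply (f : Lip0 M o') (x : M) : (shiftLip o o').symm f x = f x - f o := rfl

/-- The adjoint of the change of base point. -/
noncomputable def adj (φ : Lip0 M o' →L[ℝ] ℝ) : Lip0 M o →L[ℝ] ℝ :=
  φ.comp ((shiftLip o o').toContinuousLinearEquiv : Lip0 M o →L[ℝ] Lip0 M o')

theorem adj_apply (φ : Lip0 M o' →L[ℝ] ℝ) (f : Lip0 M o) : adj o o' φ f = φ (shiftLip o o' f) := rfl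

theorem adj_delta (x : M) : adj o o' (delta o' x) = delta o x - delta o o' := by
  ext f
  rfl

theorem delta_base : delta o o = 0 := by
  ext f
  exact Lip0.map_base f

/-- The adjoint as a continuous linear map. -/
noncomputable def adjL : (Lip0 M o' →L[ℝ] ℝ) →L[ℝ] (Lip0 M o →L[ℝ] ℝ) :=
  LinearMap.mkContinuous
    { toFun := adj o o'
      map_add' := fun _ _ => rfl
      map_smul' := fun _ _ => rfl } 1 (fun φ => by
        rw [one_mul]
        refine ContinuousLinearMap.opNorm_le_bound _ (norm_nonneg _) fun f => ?_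
        calc ‖φ (shiftLip o o' f)‖ ≤ ‖φ‖ * ‖shiftLip o o' f‖ := φ.le_opNorm _
          _ = ‖φ‖ * ‖f‖ := by rw [LinearIsometryEquiv.norm_map])

theorem norm_adj_le (φ : Lip0 M o' →L[ℝ] ℝ) : ‖adj o o' φ‖ ≤ ‖φ‖ := by
  refine ContinuousLinearMap.opNorm_le_bound _ (norm_nonneg _) fun f => ?_
  calc ‖φ (shiftLip o o' f)‖ ≤ ‖φ‖ * ‖shiftLip o o' f‖ := φ.le_opNorm _
    _ = ‖φ‖ * ‖f‖ := by rw [LinearIsometryEquiv.norm_map]

theorem adj_adj (φ : Lip0 M o' →L[ℝ] ℝ) : adj o' o (adj o o' φ) = φ := by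
  ext f
  rw [adj_apply, adj_apply]
  congr 1
  apply Lip0.ext; intro x
  show (f x - f o) - (f o' - f o) = f x
  simp

theorem norm_adj (φ : Lip0 M o' →L[ℝ] ℝ) : ‖adj o o' φ‖ = ‖φ‖ := by
  apply le_antisymm (norm_adj_le o o' φ)
  calc ‖φ‖ = ‖adj o' o (adj o o' φ)‖ := by rw [adj_adj]
    _ ≤ ‖adj o o' φ‖ := norm_adj_le _ _ _

theorem adj_mem {φ : Lip0 M o' →L[ℝ] ℝ} (hφ : φ ∈ LipSpan M o') : adj o o' φ ∈ LipSpan M o := by
  have h1 : (LipSpan M o').map ((adjL o o' : (Lip0 M o' →L[ℝ] ℝ) →L[ℝ] (Lip0 M o →L[ℝ] ℝ)) :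
      (Lip0 M o' →L[ℝ] ℝ) →ₗ[ℝ] (Lip0 M o →L[ℝ] ℝ)) ≤ LipSpan M o := by
    refine (Submodule.topologicalClosure_map (adjL o o') _).trans ?_
    apply Submodule.topologicalClosure_mono
    rw [Submodule.map_span_le]
    rintro _ ⟨x, rfl⟩
    show adj o o' (delta o' x) ∈ _
    rw [adj_delta]
    exact Submodule.sub_mem _ (Submodule.subset_span ⟨x, rfl⟩) (Submodule.subset_span ⟨o', rfl⟩)
  exact h1 ⟨φ, hφ, rfl⟩

/-- Lipschitz-free spaces with different base points are isometric. -/
noncomputable def lipFreeIso : LipSpan M o' ≃ₗᵢ[ℝ] LipSpan M o where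
  toFun φ := ⟨adj o o' φ.1, adj_mem o o' φ.2⟩
  invFun φ := ⟨adj o' o φ.1, adj_mem o' o φ.2⟩
  map_add' _ _ := rfl
  map_smul' _ _ := rfl
  left_inv φ := Subtype.ext (adj_adj o o' φ.1)
  right_inv φ := Subtype.ext (adj_adj o' o φ.1)
  norm_map' φ := norm_adj o o' φ.1

/-- The bounded approximation property of `F(M)` does not depend on the base point. -/
theorem hasBAP_base (h : HasBAP (LipFree M o')) : HasBAP (LipFree M o) :=
  hasBAP_lipFree_iff.2 ((hasBAP_lipFree_iff.1 h).of_isometry (lipFreeIso o o'))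

/-- The `lam`-bounded approximation property of `F(M)` does not depend on the base point. -/
theorem hasBAPWith_base {lam : ℝ} (h : HasBAPWith lam (LipFree M o')) :
    HasBAPWith lam (LipFree M o) :=
  hasBAPWith_lipFree_iff.2 ((hasBAPWith_lipFree_iff.1 h).of_isometry (lipFreeIso o o'))

end Base

end Vale.Agent.P090
end
end
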